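import Vale.Agent.P267.H821.Exist

/-!
# P267 / H821 (D-LBNF): holomorphic sections are norm functions, with the Chern curvature
-/

set_option linter.unusedVariables false
set_option linter.unusedSectionVars false

open scoped Manifold ContDiff ComplexConjugate Matrix ComplexOrder Topology
open MeasureTheory Set Filter

noncomputable section

namespace Vale.Agent.P267.H821

open FL H757 H509

variable {X : Type*} [TopologicalSpace X] [ChartedSpace C2 X] [IsManifold 𝓘(ℂ, C2) ω X]
variable {ι : Type} [Fintype ι] [DecidableEq ι]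

/-- the curvature `-∂∂̄ log ρ` of the metric `ρ` on `K^κ`, in the preferred coordinates -/
def curvW (κ : ℤ) (ρ : X → ℝ) (x : X) : Matrix (Fin 2) (Fin 2) ℂ :=
  -H332.ddz (fun z => (Real.log (locW κ ρ (chartAt C2 x) z) : ℂ)) (chartAt C2 x x)

/-- `∂∂̄ log det h`, the curvature of `K` with the metric `1 / det h`, in the preferred
coordinates -/
def ricF (h : X → Matrix (Fin 2) (Fin 2) ℂ) (x : X) : Matrix (Fin 2) (Fin 2) ℂ :=
  H332.ddz (fun z => (Real.log (loc11 (chartAt C2 x) h z).det.re : ℂ)) (chartAt C2 x x)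

/-- the curvature form of `K` with the metric `1 / det h` -/
def FK (h : X → Matrix (Fin 2) (Fin 2) ℂ) : TwoF X := ⟨fun _ => 0, ricF h, fun _ => 0⟩

/-- data of a holomorphic section of `K^κ ⊗ (L, a)`, not identically zero near any point -/
structure IsSection (L : LB X ι) (a : X → Fin 2 → ℂ) (κ : ℤ) (s : X → EuclideanSpace ℂ ι) :
    Prop where
  hol : L.IsHol a
  reg : Reg0 ∞ κ s
  sec : L.Sec s
  db : ∀ x, L.db0 a κ s x = 0
  nz : ∀ V : Set X, IsOpen V → V.Nonempty → ∃ x ∈ V, s x ≠ 0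

/-- identity theorem: a holomorphic section of `K^κ ⊗ (L, a)` on a connected surface which does not
vanish identically does not vanish identically on any nonempty open set -/
theorem isSection_of_connected [PreconnectedSpace X] {L : LB X ι} {a : X → Fin 2 → ℂ} {κ : ℤ}
    {s : X → EuclideanSpace ℂ ι} (ha : L.IsHol a) (hreg : Reg0 ∞ κ s) (hsec : L.Sec s)
    (hdb : ∀ x, L.db0 a κ s x = 0) (hne : ∃ x, s x ≠ 0) : IsSection L a κ s where
  hol := ha
  reg := hreg
  sec := hsec
  db := hdb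
  nz := by
    intro V hV hVn
    by_contra hcon
    push Not at hcon
    set A : Set X := interior {x | s x = 0} with hA
    have hAo : IsOpen A := isOpen_interior
    have hVA : V ⊆ A := interior_maximal hcon hV
    have hAc : IsClosed A := by
      rw [← closure_subset_iff_isClosed]
      intro p hp
      obtain ⟨U, e, hpU, hf⟩ := exists_holFrame ha p
      set c := chartAt C2 p with hcd
      have hc : c ∈ atlas C2 X := chart_mem_atlas C2 p
      have hpc : p ∈ c.source := mem_chart_source C2 p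
      set G : C2 → ℂ := loc0 κ c (coef e s) with hG
      have hO : IsOpen (c.target ∩ c.symm ⁻¹' U) := c.symm.isOpen_inter_preimage hf.isOpen
      have hpO : c p ∈ c.target ∩ c.symm ⁻¹' U :=
        ⟨c.map_source hpc, by rw [mem_preimage, c.left_inv hpc]; exact hpU⟩
      have hGd : DifferentiableOn ℂ G (c.target ∩ c.symm ⁻¹' U) :=
        coef_hol hf hreg hsec (fun x _ => hdb x) c hc
      have hz : ∀ z ∈ c.target ∩ c.symm ⁻¹' U, G z = 0 ↔ s (c.symm z) = 0 := by
        intro z hz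
        have hx := c.map_target hz.1
        rw [hG, loc0, smul_eq_zero_iff_right (zpow_ne_zero _ (jac_det_ne_zero hc hx)),
          coef_eq_zero (hf.sec _ hz.2) (hsec _) (hf.ne _ hz.2)]
      obtain ⟨r, hr, hball⟩ := Metric.isOpen_iff.1 hO (c p) hpO
      have han : AnalyticOnNhd ℂ G (Metric.ball (c p) r) := fun z hz' =>
        P268.analyticAt_of_differentiableOn hO hGd (hball hz')
      -- a point of `A` in the ball
      have hW : IsOpen (c.source ∩ c ⁻¹' Metric.ball (c p) r) :=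
        c.isOpen_inter_preimage Metric.isOpen_ball
      obtain ⟨q, ⟨hqc, hqb⟩, hqA⟩ := mem_closure_iff.1 hp _ hW
        ⟨hpc, Metric.mem_ball_self hr⟩
      have hq0 : G =ᶠ[𝓝 (c q)] 0 := by
        have h1 : IsOpen (c.target ∩ c.symm ⁻¹' A) := c.symm.isOpen_inter_preimage hAo
        filter_upwards [h1.mem_nhds ⟨c.map_source hqc, by rw [mem_preimage, c.left_inv hqc]; exact hqA⟩,
          Metric.isOpen_ball.mem_nhds hqb] with z hz1 hz2
        have hz3 : c.symm z ∈ {x | s x = 0} := interior_subset hz1.2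
        exact (hz z (hball hz2)).2 hz3
      have h0 := han.eqOn_zero_of_preconnected_of_eventuallyEq_zero
        (convex_ball (c p) r).isPreconnected hqb hq0
      rw [hA, mem_interior_iff_mem_nhds]
      filter_upwards [hW.mem_nhds ⟨hpc, Metric.mem_ball_self hr⟩] with x hx
      have h2 := (hz (c x) (hball hx.2)).1 (h0 hx.2)
      rwa [c.left_inv hx.1] at h2
    have hAu : A = univ := (isClopen_iff.1 ⟨hAc, hAo⟩).resolve_left fun h => by
      obtain ⟨x, hx⟩ := hVn
      have := hVA hx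
      rw [h] at this
      exact this
    obtain ⟨x, hx⟩ := hne
    have h1 : x ∈ A := by rw [hAu]; trivial
    have h2 : x ∈ {x | s x = 0} := interior_subset h1
    exact hx h2

/-- **the squared norm of a holomorphic section is a norm function** -/
theorem IsSection.isNormFn {L : LB X ι} {a : X → Fin 2 → ℂ} {κ : ℤ} {s : X → EuclideanSpace ℂ ι}
    (hs : IsSection L a κ s) {ρ : X → ℝ} (hρ : IsWt κ ρ) : IsNormFn C2 (nsqW ρ s) := by
  intro p
  obtain ⟨U, e, hp, hf⟩ := exists_holFrame hs.hol p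
  exact ⟨U ∩ (chartAt C2 p).source, _, _, ⟨hp, mem_chart_source C2 p⟩,
    locRep hf hs.reg hs.sec (fun x _ => hs.db x) hs.nz hρ (chart_mem_atlas C2 p)⟩

/-- its curvature -/
theorem IsSection.curvN_eq {L : LB X ι} {a : X → Fin 2 → ℂ} {κ : ℤ}
    {s : X → EuclideanSpace ℂ ι} (hs : IsSection L a κ s) {ρ : X → ℝ} (hρ : IsWt κ ρ) (x : X) :
    H332.curvN (nsqW ρ s) x = (L.chern a).f11 x + curvW κ ρ x := by
  obtain ⟨U, e, hx, hf⟩ := exists_holFrame hs.hol x
  set c := chartAt C2 x with hcd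
  have hc : c ∈ atlas C2 X := chart_mem_atlas C2 x
  have hxc : x ∈ c.source := mem_chart_source C2 x
  have hrep := locRep hf hs.reg hs.sec (fun x _ => hs.db x) hs.nz hρ hc
  rw [H332.curvN_eq hrep ⟨hx, hxc⟩]
  have hne : e (c.symm (c x)) ≠ 0 := by rw [c.left_inv hxc]; exact hf.ne x hx
  have h1 : ContDiffAt ℝ 2 (fun z => (Real.log (‖e (c.symm z)‖ ^ 2) : ℂ)) (c x) := by
    refine H332.contDiffAt_ofReal (ContDiffAt.log (((hf.reg c hc _ (mem_chart_target C2 x)
      (by rwa [c.left_inv hxc])).norm_sq ℝ).of_le (WithTop.coe_le_coe.2 le_top)) ?_)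
    have := norm_pos_iff.2 hne
    positivity
  have h2 : ContDiffAt ℝ 2 (fun z => (Real.log (locW κ ρ c z) : ℂ)) (c x) :=
    H332.contDiffAt_ofReal (((hρ.contDiffOn_log hc).contDiffAt
      (c.open_target.mem_nhds (mem_chart_target C2 x))).of_le (WithTop.coe_le_coe.2 le_top))
  have h3 : (fun y => (wt κ ρ c e (c.symm y) : ℂ)) =ᶠ[𝓝 (c x)]
      fun z => -(Real.log (‖e (c.symm z)‖ ^ 2) : ℂ) - (Real.log (locW κ ρ c z) : ℂ) := by
    filter_upwards [c.open_target.mem_nhds (mem_chart_target C2 x)] with z hz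
    rw [wt, c.right_inv hz]
    push_cast
    rfl
  rw [H332.ddz_congr h3, H332.ddz_sub h1.neg h2, H332.ddz_neg, hf.ddz_log hs.hol.smooth hx, neg_neg,
    curvW, sub_eq_add_neg]

/-- the curvature of `(L, a)` is of type `(1,1)` -/
theorem chern_f02 {L : LB X ι} {a : X → Fin 2 → ℂ} (ha : L.IsHol a) (x : X) :
    (L.chern a).f02 x = 0 := by
  have h1 := ha.integrable x
  change L.F02 x + dbar1 0 a x = 0
  rw [add_comm]
  exact h1

theorem chern_f20 {L : LB X ι} {a : X → Fin 2 → ℂ} (ha : L.IsHol a) (x : X) :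
    (L.chern a).f20 x = 0 := by
  obtain ⟨U, e, hx, hf⟩ := exists_holFrame ha x
  set c := chartAt C2 x with hcd
  have hc : c ∈ atlas C2 X := chart_mem_atlas C2 x
  have hxc : x ∈ c.source := mem_chart_source C2 x
  have hfr := hf.fr
  have hne : e (c.symm (c x)) ≠ 0 := by rw [c.left_inv hxc]; exact hf.ne x hx
  have hg : ∀ i, DifferentiableAt ℝ (fun z => loc10 c (gam e) z i) (c x) := fun i =>
    differentiableAt_pi.1 ((hfr.gam_smooth hc hxc hx).differentiableAt (by simp)) i
  have haa : ∀ i, DifferentiableAt ℝ (fun z => loc1 0 c a z i) (c x) := fun i =>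
    differentiableAt_pi.1 ((ha.smooth.contDiffAt hc (mem_chart_target C2 x)).differentiableAt
      (by simp)) i
  have h7 : ∀ i, (fun z => loc10 c (fun y i => -conj (a y i)) z i) =
      fun z => -conj (loc1 0 c a z i) := by
    intro i
    funext z
    simp only [loc10, loc1, zpow_zero, smul_eq_mul, map_sum, map_mul,
      Complex.conj_conj, mul_neg, Finset.sum_neg_distrib, map_one, one_mul]
  have hsm : ContDiffAt ℝ 2 (fun z => (Real.log (‖e (c.symm z)‖ ^ 2) : ℂ)) (c x) := by
    refine H332.contDiffAt_ofReal (ContDiffAt.log (((hf.reg c hc _ (mem_chart_target C2 x)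
      (by rwa [c.left_inv hxc])).norm_sq ℝ).of_le (WithTop.coe_le_coe.2 le_top)) ?_)
    have := norm_pos_iff.2 hne
    positivity
  have hcomm := dz_dz_comm hsm 0 1
  rw [dz_congr (hf.dz_log_eventually hc hxc hx 1), dz_congr (hf.dz_log_eventually hc hxc hx 0),
    dz_sub (hg 1) (differentiableAt_conj (haa 1)), dz_sub (hg 0) (differentiableAt_conj (haa 0))]
    at hcomm
  change L.F20 x + del10 (fun y i => -conj (a y i)) x = 0
  rw [hfr.F20_eq hx, del10, del10, ← hcd, h7, h7, dz_neg, dz_neg]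
  linear_combination hcomm

theorem chern_eq {L : LB X ι} {a : X → Fin 2 → ℂ} (ha : L.IsHol a) :
    L.chern a = ⟨fun _ => 0, (L.chern a).f11, fun _ => 0⟩ := by
  have h1 : (L.chern a).f20 = fun _ => 0 := funext (chern_f20 ha)
  have h2 : (L.chern a).f02 = fun _ => 0 := funext (chern_f02 ha)
  have h3 : L.chern a = ⟨(L.chern a).f20, (L.chern a).f11, (L.chern a).f02⟩ := rfl
  rw [h3, h1, h2]

/-- **curvature form of the norm function of a holomorphic section of `K^κ ⊗ (L, a)`** -/
theorem IsSection.cF_eq {L : LB X ι} {a : X → Fin 2 → ℂ} {κ : ℤ}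
    {s : X → EuclideanSpace ℂ ι} (hs : IsSection L a κ s) {ρ : X → ℝ} (hρ : IsWt κ ρ) :
    H332.cF (nsqW ρ s) = ⟨fun _ => 0, fun x => (L.chern a).f11 x + curvW κ ρ x, fun _ => 0⟩ := by
  have : H332.curvN (nsqW ρ s) = fun x => (L.chern a).f11 x + curvW κ ρ x :=
    funext fun x => hs.curvN_eq hρ x
  rw [H332.cF, this]

/-! ### the two standard weights -/

theorem curvW_one (x : X) : curvW 0 (fun _ : X => (1 : ℝ)) x = 0 := by
  have : (fun z => (Real.log (locW 0 (fun _ : X => (1 : ℝ)) (chartAt C2 x) z) : ℂ)) =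
      fun _ => 0 := by
    funext z
    simp [locW]
  rw [curvW, this, H332.ddz_const, neg_zero]

/-- `κ = 0`: the squared norm of a holomorphic section of `(L, a)` is a norm function -/
theorem IsSection.isNormFn_zero {L : LB X ι} {a : X → Fin 2 → ℂ} {s : X → EuclideanSpace ℂ ι}
    (hs : IsSection L a 0 s) : IsNormFn C2 fun x => ‖s x‖ ^ 2 := by
  have := hs.isNormFn isWt_one
  have h : nsqW (fun _ => (1 : ℝ)) s = fun x => ‖s x‖ ^ 2 := by
    funext x
    simp [nsqW]
  rwa [h] at this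

/-- `κ = 0`: its curvature form is the Chern curvature of `(L, a)` -/
theorem IsSection.cF_zero {L : LB X ι} {a : X → Fin 2 → ℂ} {s : X → EuclideanSpace ℂ ι}
    (hs : IsSection L a 0 s) : H332.cF (fun x => ‖s x‖ ^ 2) = L.chern a := by
  have := hs.cF_eq isWt_one
  have h : nsqW (fun _ => (1 : ℝ)) s = fun x => ‖s x‖ ^ 2 := by
    funext x
    simp [nsqW]
  rw [h] at this
  rw [this, chern_eq hs.hol]
  simp only [curvW_one, add_zero]

/-- `κ = 0`, in the form used by helper466 -/
theorem lbnf {L : LB X ι} {a : X → Fin 2 → ℂ} {s : X → EuclideanSpace ℂ ι} (ha : L.IsHol a)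
    (hs : Reg0 ∞ 0 s) (hsec : L.Sec s) (h0 : ∀ x i, L.db0 a 0 s x i = 0)
    (hd : Dense {x | s x ≠ 0}) :
    IsNormFn C2 (fun x => ‖s x‖ ^ 2) ∧ H332.cF (fun x => ‖s x‖ ^ 2) = L.chern a := by
  have h : IsSection L a 0 s := ⟨ha, hs, hsec, fun x => funext fun i => h0 x i, fun V hV hn => by
    obtain ⟨x, hxV, hx⟩ := hd.inter_open_nonempty V hV hn
    exact ⟨x, hxV, hx⟩⟩
  exact ⟨h.isNormFn_zero, h.cF_zero⟩

theorem curvW_det {h : X → Matrix (Fin 2) (Fin 2) ℂ} (hh : IsHerm h) (κ : ℤ) (x : X) :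
    curvW κ (fun x => (h x).det.re ^ (-κ)) x = (κ : ℂ) • ricF h x := by
  have hc : chartAt C2 x ∈ atlas C2 X := chart_mem_atlas C2 x
  have h1 : (fun z => (Real.log (locW κ (fun x => (h x).det.re ^ (-κ)) (chartAt C2 x) z) : ℂ)) =ᶠ[
      𝓝 (chartAt C2 x x)] fun z => (-κ : ℂ) * (Real.log (loc11 (chartAt C2 x) h z).det.re : ℂ) := by
    filter_upwards [(chartAt C2 x).open_target.mem_nhds (mem_chart_target C2 x)] with z hz
    rw [locW_det, Real.log_zpow]
    push_cast
    ring
  rw [curvW, H332.ddz_congr h1, H332.ddz_const_mul, ricF, neg_smul, neg_neg]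
  exact H332.contDiffAt_ofReal (((contDiffOn_logdet hh hc).contDiffAt
    ((chartAt C2 x).open_target.mem_nhds (mem_chart_target C2 x))).of_le
      (WithTop.coe_le_coe.2 le_top))

/-- `K^κ ⊗ (L, a)` with the metric of `h` -/
theorem IsSection.isNormFn_det {L : LB X ι} {a : X → Fin 2 → ℂ} {κ : ℤ}
    {s : X → EuclideanSpace ℂ ι} (hs : IsSection L a κ s)
    {h : X → Matrix (Fin 2) (Fin 2) ℂ} (hh : IsHerm h) : IsNormFn C2 (nsq h κ s) :=
  hs.isNormFn (isWt_det hh κ)

theorem IsSection.cF_det {L : LB X ι} {a : X → Fin 2 → ℂ} {κ : ℤ}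
    {s : X → EuclideanSpace ℂ ι} (hs : IsSection L a κ s)
    {h : X → Matrix (Fin 2) (Fin 2) ℂ} (hh : IsHerm h) :
    H332.cF (nsq h κ s) =
      ⟨fun _ => 0, fun x => (L.chern a).f11 x + (κ : ℂ) • ricF h x, fun _ => 0⟩ := by
  have h1 := hs.cF_eq (isWt_det hh κ)
  have h2 : nsqW (fun x => (h x).det.re ^ (-κ)) s = nsq h κ s := rfl
  rw [h2] at h1
  rw [h1]
  simp only [curvW_det hh]

end Vale.Agent.P267.H821
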