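import Vale.Agent.P267.H821.Quot

/-!
# P267 / H821 (LINE X, step (A3)): the data on `W`, case B
-/

set_option linter.unusedVariables false
set_option linter.unusedSectionVars false

open scoped Manifold ContDiff ComplexConjugate Matrix ComplexOrder Topology
open MeasureTheory Set Filter Function

noncomputable section

namespace Vale.Agent.P267.H821

open FL H757 H332 H781 H759

/-- monomials of holomorphic functions -/
theorem hol_monomial {X : Type*} [TopologicalSpace X] [ChartedSpace C2 X]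
    [IsManifold 𝓘(ℂ, C2) ω X] {W : Set X} {ζ : X → ℂ} (h : MDifferentiableOn 𝓘(ℂ, C2) 𝓘(ℂ) ζ W)
    (k : ℕ) : MDifferentiableOn 𝓘(ℂ, C2) 𝓘(ℂ) (fun x => ζ x ^ k) W := by
  intro x hx
  exact (h x hx).pow k

namespace Geo

variable {M : Type*} [TopologicalSpace M] [ChartedSpace C2 M] [IsManifold 𝓘(ℂ, C2) ω M]
  (D : Geo M)

/-- the part of `D_q` along `Z ∪ C q` -/
def Eq (i q : ℤ) (x : M) : ℝ := D.Q q x * ∏ j ∈ (Iv D.s q).filter (fun j => j ≤ i), D.N j x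

/-- **Case B** on `W` -/
theorem eqv_B {i q : ℤ} {b : ℝ} {L : ℤ} (hL : ∀ l, L ≤ l → ∀ x ∈ D.C l, b ≤ D.f x)
    (hq : i + 2 ≤ q) (hB : ∀ l, i ∈ Iv D.s l → (l = i + 1 ∨ l = q)) {l : ℤ} (hl : i < l) :
    Eqv D.f (D.Wset i b L {q}) (D.N l)
      (fun x => D.N (i + 1) x ^ D.m l (i + 1) * D.Eq i q x ^ D.m l q) := by
  have e1 : Eqv D.f (D.Wset i b L {q}) (D.N l) (fun x => ∏ p ∈ Finset.Ioc i l,
      (D.Q p x * ∏ j ∈ (Iv D.s p).filter (fun j => j ≤ i), D.N j x) ^ D.m l p) :=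
    Eqv.of_eq fun x _ => D.duhamel i l hl x
  have e2 : Eqv D.f (D.Wset i b L {q}) (fun x => ∏ p ∈ Finset.Ioc i l,
      (D.Q p x * ∏ j ∈ (Iv D.s p).filter (fun j => j ≤ i), D.N j x) ^ D.m l p)
      (fun x => ∏ p ∈ Finset.Ioc i l,
        ((if p = i + 1 then D.N (i + 1) x ^ D.m l (i + 1) else 1) *
          (if p = q then D.Eq i q x ^ D.m l q else 1))) := by
    refine Eqv.prod _ fun p hp => ?_
    rw [Finset.mem_Ioc] at hp
    by_cases hpi : p = i + 1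
    · subst hpi
      have h2 : ¬ (i + 1 = q) := by omega
      simp only [if_true, if_neg h2, mul_one]
      exact Eqv.of_eq fun x _ => by rw [D.E_succ]
    · by_cases hpq : p = q
      · subst hpq
        simp only [if_true, if_neg hpi, one_mul]
        exact Eqv.refl _ _ _
      · simp only [if_neg hpi, if_neg hpq, mul_one]
        exact (D.E_one hL (T := {q}) (fun l hl => by
          rcases hB l hl with h | h
          · exact Or.inl h
          · exact Or.inr (Finset.mem_singleton.2 h)) (by omega)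
          (by simpa using hpq)).pow_one _
  refine (e1.trans e2).trans (Eqv.of_eq fun x _ => ?_)
  rw [Finset.prod_mul_distrib, Finset.prod_ite_eq', Finset.prod_ite_eq',
    if_pos (Finset.mem_Ioc.2 ⟨by omega, by omega⟩)]
  congr 1
  by_cases hlq : q ≤ l
  · rw [if_pos (Finset.mem_Ioc.2 ⟨by omega, hlq⟩)]
  · rw [if_neg (by rw [Finset.mem_Ioc]; omega), D.hm.zero l q (by omega), pow_zero]

/-- algebra: a relation with exponents of determinant one -/
theorem eqv_monomial {f : M → ℝ} {W : Set M} {A E F F' : M → ℝ} {x y x' y' : ℕ}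
    (h : Eqv f W F (fun z => A z ^ x * E z ^ y)) (h' : Eqv f W F' (fun z => A z ^ x' * E z ^ y'))
    (hdet : x * y' = y * x' + 1) :
    Eqv f W (fun z => A z * F' z ^ y) (fun z => F z ^ y') ∧
      Eqv f W (fun z => E z * F z ^ x') (fun z => F' z ^ x) := by
  constructor
  · have e1 : Eqv f W (fun z => A z * F' z ^ y) (fun z => A z * (A z ^ x' * E z ^ y') ^ y) :=
      (Eqv.refl f W A).mul (h'.pow y)
    have e2 : Eqv f W (fun z => F z ^ y') (fun z => (A z ^ x * E z ^ y) ^ y') := h.pow y'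
    refine (e1.trans (Eqv.of_eq fun z _ => ?_)).trans e2.symm
    rw [mul_pow, mul_pow, ← pow_mul, ← pow_mul, ← pow_mul, ← pow_mul, hdet, pow_succ,
      mul_comm x' y, mul_comm y' y]
    ring
  · have e1 : Eqv f W (fun z => E z * F z ^ x') (fun z => E z * (A z ^ x * E z ^ y) ^ x') :=
      (Eqv.refl f W E).mul (h.pow x')
    have e2 : Eqv f W (fun z => F' z ^ x) (fun z => (A z ^ x' * E z ^ y') ^ x) := h'.pow x
    refine (e1.trans (Eqv.of_eq fun z _ => ?_)).trans e2.symm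
    rw [mul_pow, mul_pow, ← pow_mul, ← pow_mul, ← pow_mul, ← pow_mul, mul_comm y' x, hdet,
      pow_succ, mul_comm x' x]
    ring

/-- the last step of case B -/
theorem exists_onW_of_rel [T2Space M] {i q : ℤ} {b : ℝ} {L i2 : ℤ}
    (hL : ∀ l, L ≤ l → ∀ x ∈ D.C l, b ≤ D.f x) (hq : i + 2 ≤ q)
    (hB : ∀ l, i ∈ Iv D.s l → (l = i + 1 ∨ l = q)) (hbZ : ∀ x ∈ D.Z i, D.f x < b)
    (hflat : ∀ l, i2 ≤ l → FlatN (D.Wset i b L {q}) (D.N l))
    {ζ ζ' : M → ℂ} (hζ : MDifferentiableOn 𝓘(ℂ, C2) 𝓘(ℂ) ζ (D.Wset i b L {q}))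
    (hζ' : MDifferentiableOn 𝓘(ℂ, C2) 𝓘(ℂ) ζ' (D.Wset i b L {q}))
    (hnz : ∀ V : Set M, IsOpen V → V ⊆ D.Wset i b L {q} → V.Nonempty → ∃ x ∈ V, ζ' x ≠ 0)
    (hf : FlatN (D.Wset i b L {q}) fun x => ‖ζ x‖ ^ 2)
    (hf' : FlatN (D.Wset i b L {q}) fun x => ‖ζ' x‖ ^ 2) {x y x' y' : ℕ}
    (h1 : Eqv D.f (D.Wset i b L {q}) (fun z => ‖ζ z‖ ^ 2)
      (fun z => D.N (i + 1) z ^ x * D.Eq i q z ^ y))
    (h2 : Eqv D.f (D.Wset i b L {q}) (fun z => ‖ζ' z‖ ^ 2)
      (fun z => D.N (i + 1) z ^ x' * D.Eq i q z ^ y'))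
    (hdet : x * y' = y * x' + 1) : Nonempty (D.OnW i) := by
  set W := D.Wset i b L {q} with hW
  have hWo : IsOpen W := D.isOpen_Wset
  obtain ⟨r1, r2⟩ := eqv_monomial h1 h2 hdet
  -- the exact function
  obtain ⟨u, hu, hu0, hueq, K, hK, huK⟩ := eqv_def r1
  obtain ⟨zz, hzz, hzzB⟩ := exists_quot hWo (g₁ := fun z => ζ z ^ y') (g₂ := fun z => ζ' z ^ y)
    (hol_monomial hζ y') (hol_monomial hζ' y) (by
      intro V hV hVW hne
      obtain ⟨z, hz, hz0⟩ := hnz V hV hVW hne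
      exact ⟨z, hz, pow_ne_zero _ hz0⟩)
    (B := fun z => (u z)⁻¹ * D.N (i + 1) z) (by
      refine ContinuousOn.mul (ContinuousOn.inv₀ hu.continuousOn fun z hz => (hu0 z hz).ne') ?_
      exact (D.N_norm (i + 1)).continuous.continuousOn) (by
      intro z hz
      have h3 := hueq z hz
      have h4 := hu0 z hz
      simp only [norm_pow]
      have h5 : (‖ζ z‖ ^ y') ^ 2 = (‖ζ z‖ ^ 2) ^ y' := by rw [← pow_mul, ← pow_mul, mul_comm]
      have h6 : (‖ζ' z‖ ^ y) ^ 2 = (‖ζ' z‖ ^ 2) ^ y := by rw [← pow_mul, ← pow_mul, mul_comm]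
      rw [h5, h6, mul_assoc, h3]
      field_simp)
  have hzz_eqv : Eqv D.f W (fun z => ‖zz z‖ ^ 2) (fun z => D.N (i + 1) z ^ 1) := by
    have e1 : Eqv D.f W (fun z => u z * D.N (i + 1) z) (fun z => D.N (i + 1) z) :=
      ⟨u, hu, hu0, fun _ _ => rfl, K, hK, huK⟩
    have e2 : Eqv D.f W (fun z => (u z)⁻¹) (fun _ => 1) := by
      have : Eqv D.f W u (fun _ => 1) := ⟨u, hu, hu0, fun _ _ => (mul_one _).symm, K, hK, huK⟩
      have h3 := ((Eqv.refl D.f W fun z => (u z)⁻¹).mul this).symm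
      refine Eqv.trans (h3.congr (F' := fun z => (u z)⁻¹) (G' := fun _ => 1) ?_ ?_) (Eqv.refl _ _ _)
      · intro z hz; simp
      · intro z hz
        exact (inv_mul_cancel₀ (hu0 z hz).ne').symm
    refine (Eqv.of_eq fun z hz => hzzB z hz).trans ?_
    refine (e2.mul (Eqv.refl D.f W fun z => D.N (i + 1) z)).trans (Eqv.of_eq fun z _ => ?_)
    rw [one_mul, pow_one]
  -- the functions `ρ`
  have hρ : ∀ l, ∃ ρ : M → ℝ, i < l → l < i2 → ContMDiffOn 𝓘(ℝ, C2) 𝓘(ℝ) ∞ ρ W ∧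
      (∀ x ∈ W, 0 < ρ x) ∧ ∀ x ∈ W, curvN ρ x = curvN (D.N l) x := by
    intro l
    by_cases hl : i < l
    · obtain ⟨ρ, k1, k2, k3⟩ := flat_root (f := D.f) hWo ((D.N_norm l).on W)
        (F := fun z => ((‖ζ' z‖ ^ 2) ^ y) ^ D.m l (i + 1) * ((‖ζ z‖ ^ 2) ^ x') ^ D.m l q)
        (F' := fun z => ((‖ζ z‖ ^ 2) ^ y') ^ D.m l (i + 1) * ((‖ζ' z‖ ^ 2) ^ x) ^ D.m l q)
        (((hf'.pow y).pow _).mul ((hf.pow x').pow _))
        (((hf.pow y').pow _).mul ((hf'.pow x).pow _)) one_pos (by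
          have e1 := D.eqv_B hL hq hB hl
          have e2 := (r1.pow (D.m l (i + 1))).mul (r2.pow (D.m l q))
          refine Eqv.trans ?_ e2
          have e3 := e1.mul (Eqv.refl D.f W fun z =>
            ((‖ζ' z‖ ^ 2) ^ y) ^ D.m l (i + 1) * ((‖ζ z‖ ^ 2) ^ x') ^ D.m l q)
          refine (Eqv.of_eq fun z _ => ?_).trans (e3.trans (Eqv.of_eq fun z _ => ?_))
          · rw [pow_one]
          · rw [mul_pow, mul_pow]; ring)
      exact ⟨ρ, fun _ _ => ⟨k1, k2, k3⟩⟩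
    · exact ⟨fun _ => 1, fun h => absurd h hl⟩
  choose ρ hρ using hρ
  exact ⟨{
    W := W
    W_open := hWo
    Z_W := D.Z_subset_Wset (T := {q}) (fun l hl => by
      rcases hB l hl with h | h
      · exact Or.inl h
      · exact Or.inr (Finset.mem_singleton.2 h)) hbZ
    W_in := D.Wset_in
    zz := zz
    zz_hol := hzz
    m := 1
    m_pos := one_pos
    zz_eqv := hzz_eqv
    i2 := i2
    ρ := ρ
    ρ_smooth := fun l h h2 => (hρ l h h2).1
    ρ_pos := fun l h h2 => (hρ l h h2).2.1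
    ρ_curv := fun l h h2 => (hρ l h h2).2.2
    flat := fun l h h2 => (hflat l h2).curv }⟩

/-- **The data on `W` in case B.** -/
theorem exists_onW_B [T2Space M] (hB : ∀ i, ∃ q, i + 2 ≤ q ∧ i ∈ Iv D.s q) (i : ℤ) :
    Nonempty (D.OnW i) := by
  obtain ⟨q, hq, hiq⟩ := hB i
  have hBi : ∀ l, i ∈ Iv D.s l → (l = i + 1 ∨ l = q) := by
    rcases D.word.parents i with h | ⟨q', hq', h⟩
    · exfalso
      have := (h q).1 hiq
      omega
    · have h1 := (h q).1 hiq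
      have h2 : q = q' := by omega
      subst h2
      exact fun l hl => (h l).1 hl
  obtain ⟨b, hb⟩ := D.N_out i
  have hbZ : ∀ x ∈ D.Z i, D.f x < b := by
    intro x hx
    by_contra hcon
    have h1 := hb x (not_lt.1 hcon)
    have h2 : D.N i x = 0 := hx
    rw [h2] at h1
    exact zero_ne_one h1
  obtain ⟨L, hL⟩ := D.C_far b
  obtain ⟨L', hL'⟩ := D.exact b
  set W := D.Wset i b L {q} with hW
  have hWo : IsOpen W := D.isOpen_Wset
  have hWb : W ⊆ {x | D.f x < b} := fun x hx => hx.1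
  have hflat : ∀ l, L' ≤ l → FlatN W (D.N l) := by
    intro l hl
    obtain ⟨ξ, h1, h2⟩ := hL' l hl
    exact (D.flat_of_exact h1 h2).1.mono hWb
  -- the two exact functions
  set d : ℕ := (L' - i).toNat with hd
  obtain ⟨q', hq', hiq'⟩ := hB (i + d)
  have hdet := D.hm.det D.word hB hq hiq d q' hq' hiq'
  have hl1 : L' ≤ i + d + 1 := by omega
  have hl2 : L' ≤ q' := by omega
  obtain ⟨ζ, hζ, hζN⟩ := hL' (i + d + 1) hl1
  obtain ⟨ζ', hζ', hζN'⟩ := hL' q' hl2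
  have gen : ∀ l, i < l → L' ≤ l → ∀ ξ : M → ℂ,
      (∀ x, D.f x < b → MDifferentiableAt 𝓘(ℂ, C2) 𝓘(ℂ) ξ x) →
      (∀ x, D.f x < b → ‖ξ x‖ ^ 2 = D.N l x) →
      MDifferentiableOn 𝓘(ℂ, C2) 𝓘(ℂ) ξ W ∧
      (∀ V : Set M, IsOpen V → V ⊆ W → V.Nonempty → ∃ x ∈ V, ξ x ≠ 0) ∧
      FlatN W (fun x => ‖ξ x‖ ^ 2) ∧ Eqv D.f W (fun z => ‖ξ z‖ ^ 2)
        (fun z => D.N (i + 1) z ^ D.m l (i + 1) * D.Eq i q z ^ D.m l q) := by
    intro l hil hl ξ h1 h2
    obtain ⟨k1, k2⟩ := D.flat_of_exact h1 h2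
    refine ⟨fun x hx => (h1 x (hWb hx)).mdifferentiableWithinAt,
      fun V hV hVW hne => k2 V hV (hVW.trans hWb) hne, ?_, ?_⟩
    · refine ⟨isNormFnOn_congr ((D.N_norm l).on W) hWo fun y hy => h2 y (hWb hy), fun x hx => ?_⟩
      exact curvN_hol hWo (fun y hy => (h1 y (hWb hy)).mdifferentiableWithinAt)
        (fun V hV hVW hne => k2 V hV (hVW.trans hWb) hne) hx
    · exact (Eqv.of_eq fun x hx => h2 x (hWb hx)).trans (D.eqv_B hL hq hBi hil)
  obtain ⟨a1, a2, a3, a4⟩ := gen (i + d + 1) (by omega) hl1 ζ hζ hζN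
  obtain ⟨b1, b2, b3, b4⟩ := gen q' (by omega) hl2 ζ' hζ' hζN'
  rcases hdet with h | h
  · refine D.exists_onW_of_rel hL hq hBi hbZ hflat a1 b1 b2 a3 b3 a4 b4 ?_
    have : ((D.m (i + d + 1) (i + 1) * D.m q' q : ℕ) : ℤ) =
        ((D.m (i + d + 1) q * D.m q' (i + 1) + 1 : ℕ) : ℤ) := by
      push_cast
      linarith
    exact_mod_cast this
  · refine D.exists_onW_of_rel hL hq hBi hbZ hflat b1 a1 a2 b3 a3 b4 a4 ?_
    have : ((D.m q' (i + 1) * D.m (i + d + 1) q : ℕ) : ℤ) =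
        ((D.m q' q * D.m (i + d + 1) (i + 1) + 1 : ℕ) : ℤ) := by
      push_cast
      linarith
    exact_mod_cast this

/-- **The data on `W`**, for a suitable index. -/
theorem exists_onW [T2Space M] : ∃ i, Nonempty (D.OnW i) := by
  by_cases h : ∃ i, ∀ l, i ∈ Iv D.s l → l = i + 1
  · obtain ⟨i, hi⟩ := h
    exact ⟨i, D.exists_onW_A hi⟩
  · push Not at h
    refine ⟨0, D.exists_onW_B (fun i => ?_) 0⟩
    obtain ⟨l, hl, hne⟩ := h i
    refine ⟨l, ?_, hl⟩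
    rw [mem_Iv] at hl
    omega

end Geo

end Vale.Agent.P267.H821
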