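import Vale.Agent.P267.H821.Fam2
import Vale.Agent.P267.H338.Riem
import Vale.Agent.P267.H759.LeafIface

/-!
# P267 / H821 (GX-K-P0): the local normal form of a flat metric on `K`

`Flat0 Γ B`: `Γ` is locally the square of the absolute value of a holomorphic function on `B ⊆ ℂ²`.
For `FlatK G W` and a holomorphic map `κ : B → W` the function `G (κ z) |det Dκ z|²` is `Flat0`.
If it is `|P|² ρ` with `P` holomorphic and `ρ > 0` continuous on the convex set `B` then it is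
`|η P|²` with `η` holomorphic without zeros on all of `B`.
-/

set_option linter.unusedVariables false
set_option linter.unusedSectionVars false

open scoped Manifold ContDiff ComplexConjugate Matrix ComplexOrder Topology
open MeasureTheory Set Filter Function

noncomputable section

namespace Vale.Agent.P267.H821

open FL H757 H332 H759

/-- `Γ` is locally the square of the absolute value of a holomorphic function -/
def Flat0 (Γ : C2 → ℝ) (B : Set C2) : Prop :=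
  ∀ x ∈ B, ∃ (U : Set C2) (g : C2 → ℂ), IsOpen U ∧ x ∈ U ∧ U ⊆ B ∧ DifferentiableOn ℂ g U ∧
    ∀ z ∈ U, ‖g z‖ ^ 2 = Γ z

/-- normal form on a convex open set -/
theorem Flat0.normal {Γ : C2 → ℝ} {B : Set C2} (hB : Convex ℝ B) (hBo : IsOpen B)
    (h : Flat0 Γ B) {P : C2 → ℂ} (hP : DifferentiableOn ℂ P B)
    (hnz : ∀ x ∈ B, ∃ᶠ z in 𝓝 x, P z ≠ 0) {ρ : C2 → ℝ} (hρ : ContinuousOn ρ B)
    (hpos : ∀ z ∈ B, 0 < ρ z) (heq : ∀ z ∈ B, Γ z = ‖P z‖ ^ 2 * ρ z) :
    ∃ η : C2 → ℂ, DifferentiableOn ℂ η B ∧ (∀ z ∈ B, η z ≠ 0) ∧ (∀ z ∈ B, ‖η z‖ ^ 2 = ρ z) ∧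
      ∀ z ∈ B, Γ z = ‖η z * P z‖ ^ 2 := by
  rcases B.eq_empty_or_nonempty with rfl | hne
  · exact ⟨fun _ => 1, by simp, by simp, by simp, by simp⟩
  -- locally `ρ = |U|²`
  have hloc : ∀ x ∈ B, ∃ (V : Set C2) (u : C2 → ℂ), IsOpen V ∧ x ∈ V ∧ V ⊆ B ∧
      DifferentiableOn ℂ u V ∧ ∀ z ∈ V, ‖u z‖ ^ 2 = ρ z := by
    intro x hx
    obtain ⟨U, g, hU, hxU, hUB, hg, hgΓ⟩ := h x hx
    -- shrink such that `ρ` is bounded
    have hρx : ContinuousAt ρ x := hρ.continuousAt (hBo.mem_nhds hx)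
    obtain ⟨U', hU'sub, hU'o, hxU'⟩ := mem_nhds_iff.1
      (hρx.eventually (gt_mem_nhds (lt_add_one (ρ x))))
    set V := U ∩ U' with hV
    have hVo : IsOpen V := hU.inter hU'o
    have hVB : V ⊆ B := fun z hz => hUB hz.1
    have hdiv : DifferentiableOn ℂ (fun z => g z / P z) (V ∩ {x | P x ≠ 0}) := by
      have k1 : DifferentiableOn ℂ g (V ∩ {x | P x ≠ 0}) := hg.mono fun z hz => hz.1.1
      have k2 : DifferentiableOn ℂ P (V ∩ {x | P x ≠ 0}) := hP.mono fun z hz => hVB hz.1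
      have k3 : DifferentiableOn ℂ (fun z => (P z)⁻¹) (V ∩ {x | P x ≠ 0}) := fun z hz =>
        (differentiableAt_inv (𝕜 := ℂ) (x := P z) hz.2).comp_differentiableWithinAt z (k2 z hz)
      exact (k1.mul k3).congr fun z hz => div_eq_mul_inv _ _
    obtain ⟨W, hW, hxW, hWV, u, hu, huP⟩ := H338.riemann_extension (g := P)
      (u := fun z => g z / P z) (C := Real.sqrt (ρ x + 1)) hVo ⟨hxU, hxU'⟩ (hP.mono hVB)
      (hnz x hx) hdiv (by
      intro z hz hz0
      have h1 := hgΓ z hz.1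
      rw [heq z (hVB hz)] at h1
      have hp : 0 < ‖P z‖ := norm_pos_iff.2 hz0
      have h2 : (‖g z‖ / ‖P z‖) ^ 2 = ρ z := by
        rw [div_pow, h1]; field_simp
      rw [norm_div]
      apply Real.le_sqrt_of_sq_le
      rw [h2]
      exact (hU'sub hz.2).le)
    refine ⟨W, u, hW, hxW, hWV.trans hVB, hu, fun z hz => ?_⟩
    -- equality on a dense set
    have hcu : ContinuousAt (fun z => ‖u z‖ ^ 2 - ρ z) z :=
      ((hu.continuousOn.continuousAt (hW.mem_nhds hz)).norm.pow 2).sub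
        (hρ.continuousAt (hBo.mem_nhds (hVB (hWV hz))))
    have hfr : ∃ᶠ y in 𝓝 z, ‖u y‖ ^ 2 - ρ y = 0 := by
      refine ((hnz z (hVB (hWV hz))).and_eventually (hW.mem_nhds hz)).mono ?_
      rintro y ⟨hy0, hyW⟩
      have h1 := hgΓ y (hWV hyW).1
      rw [heq y (hVB (hWV hyW))] at h1
      have hp : 0 < ‖P y‖ := norm_pos_iff.2 hy0
      rw [huP y hyW hy0, norm_div, div_pow, h1]
      field_simp
      ring
    have hmem : (‖u z‖ ^ 2 - ρ z) ∈ ({0} : Set ℝ) := by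
      by_contra hcon
      have : ∀ᶠ y in 𝓝 z, ‖u y‖ ^ 2 - ρ y ∈ ({0}ᶜ : Set ℝ) :=
        hcu.eventually (isOpen_compl_singleton.mem_nhds hcon)
      exact hfr (this.mono fun y hy => hy)
    exact sub_eq_zero.1 hmem
  -- `log ρ` is pluriharmonic
  have hana : ∀ x ∈ B, ∃ u : C2 → ℂ, AnalyticAt ℂ u x ∧ u x ≠ 0 ∧
      ρ =ᶠ[𝓝 x] fun z => ‖u z‖ ^ 2 := by
    intro x hx
    obtain ⟨V, u, hV, hxV, hVB, hu, huρ⟩ := hloc x hx
    refine ⟨u, P268.analyticAt_of_differentiableOn hV hu hxV, ?_, ?_⟩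
    · intro h0
      have := huρ x hxV
      rw [h0] at this
      have h2 := hpos x hx
      simp at this
      linarith
    · filter_upwards [hV.mem_nhds hxV] with z hz
      exact (huρ z hz).symm
  have hsm : ContDiffOn ℝ ∞ (fun z => Real.log (ρ z)) B := by
    intro x hx
    obtain ⟨u, hu, hu0, hρu⟩ := hana x hx
    have h1 : ContDiffAt ℝ ∞ (fun z => Real.log (‖u z‖ ^ 2)) x := contDiffAt_log_norm_sq hu hu0
    exact (h1.congr_of_eventuallyEq (by
      filter_upwards [hρu] with z hz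
      rw [hz])).contDiffWithinAt
  obtain ⟨H, hH, hHρ⟩ := plh hB hBo hne hsm (by
    intro z hz
    obtain ⟨u, hu, hu0, hρu⟩ := hana z hz
    rw [ddz_congr (g := fun y => (Real.log (‖u y‖ ^ 2) : ℂ)) (by
      filter_upwards [hρu] with y hy
      rw [hy])]
    exact ddz_log_norm_sq hu hu0)
  have hη : ∀ z ∈ B, ‖Complex.exp (H z)‖ ^ 2 = ρ z := by
    intro z hz
    rw [Complex.norm_exp, ← Real.exp_nat_mul]
    have h1 := hHρ z hz
    have h2 : ((2 : ℕ) : ℝ) * (H z).re = Real.log (ρ z) := by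
      rw [h1]; push_cast; ring
    rw [h2, Real.exp_log (hpos z hz)]
  refine ⟨fun z => Complex.exp (H z), hH.cexp, fun z _ => Complex.exp_ne_zero _, hη, fun z hz => ?_⟩
  rw [norm_mul, mul_pow, hη z hz, heq z hz, mul_comm]

/-- powers of a coordinate function -/
theorem frequently_coord_ne (k : Fin 2) (μ : ℕ) (x : C2) : ∃ᶠ z : C2 in 𝓝 x, z k ^ μ ≠ 0 := by
  have h1 : ∃ᶠ z : C2 in 𝓝 x, z k ≠ 0 := by
    intro h
    have h2 : ∀ᶠ z : C2 in 𝓝 x, z k = 0 := h.mono fun z hz => not_not.1 hz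
    have h3 : Tendsto (fun t : ℝ => x + (t : ℂ) • (Pi.single k 1 : C2)) (𝓝 0) (𝓝 x) := by
      have : ContinuousAt (fun t : ℝ => x + (t : ℂ) • (Pi.single k 1 : C2)) 0 := by fun_prop
      simpa [ContinuousAt] using this
    have h4 := h3.eventually h2
    have h5 : ∀ᶠ t : ℝ in 𝓝 0, x k + (t : ℂ) = 0 := by
      filter_upwards [h4] with t ht
      simpa using ht
    have h6 : ∀ᶠ t : ℝ in 𝓝[≠] 0, x k + (t : ℂ) = 0 := h5.filter_mono nhdsWithin_le_nhds
    have h0 : x k = 0 := by simpa using h5.self_of_nhds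
    obtain ⟨t, ht, ht0⟩ := (h6.and self_mem_nhdsWithin).exists
    rw [h0, zero_add] at ht
    exact ht0 (by exact_mod_cast ht)
  exact h1.mono fun z hz => pow_ne_zero _ hz

/-! ### pull back to `ℂ²` -/

variable {X : Type*} [TopologicalSpace X] [ChartedSpace C2 X] [IsManifold 𝓘(ℂ, C2) ω X]

theorem det_jac_eq {c : Ch X} (hc : c ∈ atlas C2 X) {y : X} (hy : y ∈ c.source) :
    (jac c y).det = (fderiv ℂ (fun z => chartAt C2 y (c.symm z)) (c y)).det := by
  have h1 : LinearMap.toMatrix' (fderiv ℂ (fun z => chartAt C2 y (c.symm z)) (c y) : C2 →ₗ[ℂ] C2) =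
      jac c y := by
    ext p i
    have h2 := jacM_apply hc (chart_mem_atlas C2 y) hy (mem_chart_source C2 y) p i
    rw [jac, h2, LinearMap.toMatrix'_apply]
    rfl
  rw [← h1, LinearMap.det_toMatrix']

/-- holomorphic maps from `ℂ²` in a chart -/
theorem differentiableAt_chart_comp {κ : C2 → X} {x : C2}
    (hκ : MDifferentiableAt 𝓘(ℂ, C2) 𝓘(ℂ, C2) κ x) {c : Ch X} (hc : c ∈ atlas C2 X)
    (hx : κ x ∈ c.source) : DifferentiableAt ℂ (fun z => c (κ z)) x := by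
  have h1 : MDifferentiableAt 𝓘(ℂ, C2) 𝓘(ℂ, C2) c (κ x) :=
    (contMDiffOn_of_mem_maximalAtlas (n := ω) (IsManifold.subset_maximalAtlas hc)).mdifferentiableOn
      (by simp) |>.mdifferentiableAt (c.open_source.mem_nhds hx)
  have h2 : MDifferentiableAt 𝓘(ℂ, C2) 𝓘(ℂ, C2) (fun z => c (κ z)) x :=
    MDifferentiableAt.comp x (g := c) h1 hκ
  exact mdifferentiableAt_iff_differentiableAt.1 h2

theorem jacκ_eq {κ : C2 → X} {x : C2} (hκ : MDifferentiableAt 𝓘(ℂ, C2) 𝓘(ℂ, C2) κ x) {c : Ch X}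
    (hc : c ∈ atlas C2 X) (hx : κ x ∈ c.source) :
    (jac c (κ x)).det * (fderiv ℂ (fun z => c (κ z)) x).det = jacκ κ x := by
  set e := chartAt C2 (κ x) with he
  have hcκ : ContinuousAt κ x := hκ.continuousAt
  have h1 : (fun z => e (κ z)) =ᶠ[𝓝 x] fun z => (fun w => e (c.symm w)) (c (κ z)) := by
    filter_upwards [hcκ.eventually (c.open_source.mem_nhds hx)] with z hz
    simp only [c.left_inv hz]
  have h3 : DifferentiableAt ℂ (fun w => e (c.symm w)) (c (κ x)) :=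
    trans_differentiableAt hc (chart_mem_atlas C2 (κ x)) hx (mem_chart_source C2 (κ x))
  have h2 : fderiv ℂ (fun z => e (κ z)) x = (fderiv ℂ (fun w => e (c.symm w)) (c (κ x))).comp
      (fderiv ℂ (fun z => c (κ z)) x) := by
    rw [h1.fderiv_eq]
    exact fderiv_fun_comp x h3 (differentiableAt_chart_comp hκ hc hx)
  unfold jacκ
  rw [← he, h2, det_jac_eq hc hx, ContinuousLinearMap.det, ContinuousLinearMap.det,
    ContinuousLinearMap.det]
  exact (LinearMap.det_comp _ _).symm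

theorem FlatK.pull {G : X → ℝ} {W : Set X} (h : FlatK G W) {κ : C2 → X} {B : Set C2}
    (hB : IsOpen B) (hκ : MDifferentiableOn 𝓘(ℂ, C2) 𝓘(ℂ, C2) κ B) (hm : ∀ x ∈ B, κ x ∈ W) :
    Flat0 (fun z => G (κ z) * ‖jacκ κ z‖ ^ 2) B := by
  intro x hx
  obtain ⟨U, θ, hU, hxU, hUW, hθ, hθG⟩ := h (κ x) (hm x hx)
  set c := chartAt C2 (κ x) with hc
  have hcA : c ∈ atlas C2 X := chart_mem_atlas C2 (κ x)
  have hcont : ContinuousOn κ B := hκ.continuousOn
  have hV : IsOpen (B ∩ κ ⁻¹' (U ∩ c.source)) :=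
    hcont.isOpen_inter_preimage hB (hU.inter c.open_source)
  have hκ' : ∀ z ∈ B, MDifferentiableAt 𝓘(ℂ, C2) 𝓘(ℂ, C2) κ z := fun z hz =>
    (hκ z hz).mdifferentiableAt (hB.mem_nhds hz)
  have hcκ : DifferentiableOn ℂ (fun z => c (κ z)) (B ∩ κ ⁻¹' (U ∩ c.source)) := fun z hz =>
    (differentiableAt_chart_comp (hκ' z hz.1) hcA hz.2.2).differentiableWithinAt
  refine ⟨B ∩ κ ⁻¹' (U ∩ c.source),
    fun z => loc0 1 c θ (c (κ z)) * (fderiv ℂ (fun z => c (κ z)) z).det, hV,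
    ⟨hx, hxU, mem_chart_source C2 (κ x)⟩, inter_subset_left, ?_, fun z hz => ?_⟩
  · refine DifferentiableOn.mul ?_ ?_
    · refine (hθ c hcA).comp hcκ fun z hz => ⟨c.map_source hz.2.2, ?_⟩
      rw [mem_preimage, c.left_inv hz.2.2]
      exact hz.2.1
    · intro z hz
      have h1 : AnalyticAt ℂ (fun z => c (κ z)) z :=
        P268.analyticAt_of_differentiableOn hV hcκ hz
      have h2 : AnalyticAt ℂ (fderiv ℂ (fun z => c (κ z))) z := h1.fderiv
      have h3 : DifferentiableAt ℂ (fun z => (fderiv ℂ (fun z => c (κ z)) z).det) z := by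
        have e1 : (fun z => (fderiv ℂ (fun z => c (κ z)) z).det) = fun z =>
            (fderiv ℂ (fun z => c (κ z)) z) (Pi.single 0 1) 0 *
              (fderiv ℂ (fun z => c (κ z)) z) (Pi.single 1 1) 1 -
            (fderiv ℂ (fun z => c (κ z)) z) (Pi.single 1 1) 0 *
              (fderiv ℂ (fun z => c (κ z)) z) (Pi.single 0 1) 1 := by
          funext z
          rw [ContinuousLinearMap.det, ← LinearMap.det_toMatrix', Matrix.det_fin_two]
          simp only [LinearMap.toMatrix'_apply]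
          rfl
        rw [e1]
        have h4 : ∀ i p : Fin 2, DifferentiableAt ℂ
            (fun z => (fderiv ℂ (fun z => c (κ z)) z) (Pi.single i 1) p) z := by
          intro i p
          have h5 := (h2.differentiableAt).clm_apply
            (differentiableAt_const (Pi.single i 1 : C2))
          exact differentiableAt_pi.1 h5 p
        exact ((h4 0 0).mul (h4 1 1)).sub ((h4 1 0).mul (h4 0 1))
      exact h3.differentiableWithinAt
  · have h1 := jacκ_eq (hκ' z hz.1) hcA hz.2.2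
    have h2 := hθG (κ z) hz.2.1
    simp only
    rw [← h1, ← h2, loc0, c.left_inv hz.2.2, zpow_one, smul_eq_mul, norm_mul, norm_mul, norm_mul]
    ring

/-- **GX-K-P0**: `G (κ z) |det Dκ z|² = |η P|²` on the convex set `B`. -/
theorem FlatK.normal {G : X → ℝ} {W : Set X} (h : FlatK G W) {κ : C2 → X} {B : Set C2}
    (hB : IsOpen B) (hBc : Convex ℝ B) (hκ : MDifferentiableOn 𝓘(ℂ, C2) 𝓘(ℂ, C2) κ B)
    (hm : ∀ x ∈ B, κ x ∈ W) {P : C2 → ℂ} (hP : DifferentiableOn ℂ P B)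
    (hnz : ∀ x ∈ B, ∃ᶠ z in 𝓝 x, P z ≠ 0) {ρ : C2 → ℝ} (hρ : ContinuousOn ρ B)
    (hpos : ∀ z ∈ B, 0 < ρ z) (heq : ∀ z ∈ B, G (κ z) * ‖jacκ κ z‖ ^ 2 = ‖P z‖ ^ 2 * ρ z) :
    ∃ η : C2 → ℂ, DifferentiableOn ℂ η B ∧ (∀ z ∈ B, η z ≠ 0) ∧ (∀ z ∈ B, ‖η z‖ ^ 2 = ρ z) ∧
      ∀ z ∈ B, Real.sqrt (G (κ z)) * ‖jacκ κ z‖ = ‖η z * P z‖ := by
  obtain ⟨η, h1, h2, h3, h4⟩ := (h.pull hB hκ hm).normal hBc hB hP hnz hρ hpos heq
  refine ⟨η, h1, h2, h3, fun z hz => ?_⟩
  have h5 := h4 z hz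
  have h6 : Real.sqrt (G (κ z) * ‖jacκ κ z‖ ^ 2) = ‖η z * P z‖ := by
    rw [h5, Real.sqrt_sq (norm_nonneg _)]
  rw [← h6, Real.sqrt_mul (h.nonneg (hm z hz)), Real.sqrt_sq (norm_nonneg _)]

/-- the square root, in the form of `LeafIn.G_loc` -/
theorem FlatK.sqrt_loc {G : X → ℝ} {W : Set X} (h : FlatK G W) {y : X} (hy : y ∈ W) :
    ∃ V : Set X, IsOpen V ∧ y ∈ V ∧ V ⊆ W ∧ ∃ σ : X → ℂ, HolOn 1 σ V ∧
      ∀ x ∈ V, ‖σ x‖ = Real.sqrt (G x) := by
  obtain ⟨U, θ, hU, hxU, hUW, hθ, hθG⟩ := h y hy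
  exact ⟨U, hU, hxU, hUW, θ, hθ, fun x hx => by
    rw [← hθG x hx, Real.sqrt_sq (norm_nonneg _)]⟩

end Vale.Agent.P267.H821
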