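import Vale.Agent.P267.H821.Geo
import Vale.Agent.P267.H821.NormalForm
import Vale.Agent.P267.H759.RawA

/-!
# P267 / H821 (LINE X, step (A3)): the raw geometry from the chain of curves

`Geo.rawA`: from an open set `W`, a holomorphic function `zz` on `W` with
`|zz|² ~ (N (i + 1))^m` and positive functions `ρ l`, `l > i`, with the curvature of `N l` on `W`.
-/

set_option linter.unusedVariables false
set_option linter.unusedSectionVars false

open scoped Manifold ContDiff ComplexConjugate Matrix ComplexOrder Topology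
open MeasureTheory Set Filter Function

noncomputable section

namespace Vale.Agent.P267.H821

open FL H757 H332 H781 H759

theorem eqv_def {X : Type*} [TopologicalSpace X] [ChartedSpace C2 X] [IsManifold 𝓘(ℂ, C2) ω X]
    {f : X → ℝ} {V : Set X} {F G : X → ℝ} (h : Eqv f V F G) :
    ∃ u : X → ℝ, ContMDiffOn 𝓘(ℝ, C2) 𝓘(ℝ) ∞ u V ∧ (∀ x ∈ V, 0 < u x) ∧
    (∀ x ∈ V, F x = u x * G x) ∧
    ∃ K : ℝ, 0 < K ∧ ∀ x ∈ V, f x ≤ -K → K⁻¹ ≤ u x ∧ u x ≤ K := h

namespace Geo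

variable {M : Type*} [TopologicalSpace M] [ChartedSpace C2 M] [IsManifold 𝓘(ℂ, C2) ω M]
  (D : Geo M)

/-- the modified family -/
def Nm (i i2 : ℤ) (ρ : ℤ → M → ℝ) (l : ℤ) : M → ℝ :=
  if l ≤ i then D.N l else if l < i2 then ρ l else fun _ => 1

/-- the square of the absolute value of the two-form -/
def G2 (i i2 : ℤ) (ρ : ℤ → M → ℝ) (x : M) : ℝ :=
  (∏ᶠ l, D.Nm i i2 ρ l x) * Real.exp (-D.w x) * (D.h x).det.re

/-- what is needed on `W` -/
structure OnW (i : ℤ) where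
  W : Set M
  W_open : IsOpen W
  Z_W : D.Z i ⊆ W
  W_in : ∃ a, ∀ x, D.f x < a → x ∈ W
  /-- `W` does not meet `C l`, `i + 1 < l`, where `|zz| ≠ 0` -/
  zz : M → ℂ
  zz_hol : ∀ x ∈ W, MDifferentiableAt 𝓘(ℂ, C2) 𝓘(ℂ, ℂ) zz x
  m : ℕ
  m_pos : 0 < m
  zz_eqv : Eqv D.f W (fun x => ‖zz x‖ ^ 2) (fun x => D.N (i + 1) x ^ m)
  i2 : ℤ
  ρ : ℤ → M → ℝ
  ρ_smooth : ∀ l, i < l → l < i2 → ContMDiffOn 𝓘(ℝ, C2) 𝓘(ℝ) ∞ (ρ l) W
  ρ_pos : ∀ l, i < l → l < i2 → ∀ x ∈ W, 0 < ρ l x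
  ρ_curv : ∀ l, i < l → l < i2 → ∀ x ∈ W, curvN (ρ l) x = curvN (D.N l) x
  flat : ∀ l, i < l → i2 ≤ l → ∀ x ∈ W, curvN (D.N l) x = 0

variable {D} {i : ℤ} (O : D.OnW i)

theorem Nm_le {l : ℤ} (h : l ≤ i) : D.Nm i O.i2 O.ρ l = D.N l := if_pos h

theorem Nm_mid {l : ℤ} (h : i < l) (h2 : l < O.i2) : D.Nm i O.i2 O.ρ l = O.ρ l := by
  rw [Nm, if_neg (not_le.2 h), if_pos h2]

theorem Nm_far {l : ℤ} (h : i < l) (h2 : O.i2 ≤ l) : D.Nm i O.i2 O.ρ l = fun _ => 1 := by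
  rw [Nm, if_neg (not_le.2 h), if_neg (not_lt.2 h2)]

theorem Nm_cases (l : ℤ) : (l ≤ i ∧ D.Nm i O.i2 O.ρ l = D.N l) ∨
    (i < l ∧ l < O.i2 ∧ D.Nm i O.i2 O.ρ l = O.ρ l) ∨
    (i < l ∧ O.i2 ≤ l ∧ D.Nm i O.i2 O.ρ l = fun _ => 1) := by
  rcases le_or_gt l i with h | h
  · exact Or.inl ⟨h, Nm_le O h⟩
  · rcases lt_or_ge l O.i2 with h2 | h2
    · exact Or.inr (Or.inl ⟨h, h2, Nm_mid O h h2⟩)
    · exact Or.inr (Or.inr ⟨h, h2, Nm_far O h h2⟩)

theorem Nm_norm (l : ℤ) : IsNormFnOn C2 (D.Nm i O.i2 O.ρ l) O.W := by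
  rcases Nm_cases O l with ⟨h, e⟩ | ⟨h, h2, e⟩ | ⟨h, h2, e⟩
  · rw [e]; exact (D.N_norm l).on _
  · rw [e]; exact isNormFnOn_of_pos O.W_open (O.ρ_smooth l h h2) (O.ρ_pos l h h2)
  · rw [e]; exact isNormFn_one.on _

/-- locally finite -/
theorem Nm_one (a : ℝ) : ∃ I : Finset ℤ, ∀ x, a ≤ D.f x → ∀ l ∉ I, D.Nm i O.i2 O.ρ l x = 1 := by
  obtain ⟨K, hK⟩ := D.N_one a
  refine ⟨Finset.Icc (min K i) (max i O.i2), fun x hx l hl => ?_⟩
  rw [Finset.mem_Icc, not_and_or, not_le, not_le] at hl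
  rcases hl with hl | hl
  · rw [Nm_le O (by omega)]
    exact hK l (by omega) x hx
  · rw [Nm_far O (by omega) (by omega)]

theorem eventually_below (x : M) : ∀ᶠ y in 𝓝 x, D.f x - 1 < D.f y :=
  D.f_cont.continuousAt.eventually_const_lt (by simp)

theorem flatK : FlatK (D.G2 i O.i2 O.ρ) O.W := by
  refine flatK_family_on O.W_open (Nm_norm O) (fun x _ => ?_) D.herm D.w_smooth.contMDiffOn
    fun y hy => ?_
  · obtain ⟨I, hI⟩ := Nm_one O (D.f x - 1)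
    refine ⟨I, ?_⟩
    filter_upwards [eventually_below (D := D) x] with y hy
    exact hI y hy.le
  · rw [← D.curv y]
    refine finsum_congr fun l => ?_
    rcases Nm_cases O l with ⟨h, e⟩ | ⟨h, h2, e⟩ | ⟨h, h2, e⟩
    · rw [e]
    · rw [e]; exact O.ρ_curv l h h2 y hy
    · rw [e, curvN_const_one, O.flat l h h2 y hy]

theorem Nm_pos {x : M} (hx : x ∈ O.W) (hZ : x ∉ D.Z i) (l : ℤ) : 0 < D.Nm i O.i2 O.ρ l x := by
  rcases Nm_cases O l with ⟨h, e⟩ | ⟨h, h2, e⟩ | ⟨h, h2, e⟩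
  · rw [e]
    exact D.N_pos fun j hj hxj => hZ ((D.mem_Z i).2 ⟨j, hj.trans h, hxj⟩)
  · rw [e]; exact O.ρ_pos l h h2 x hx
  · rw [e]; exact one_pos

theorem finprod_Nm {I : Finset ℤ} {x : M} (hI : ∀ l ∉ I, D.Nm i O.i2 O.ρ l x = 1) :
    (∏ᶠ l, D.Nm i O.i2 O.ρ l x) = ∏ l ∈ I, D.Nm i O.i2 O.ρ l x := by
  refine finprod_eq_prod_of_mulSupport_subset _ fun l hl => ?_
  by_contra hlI
  exact hl (hI l hlI)

theorem G2_pos {x : M} (hx : x ∈ O.W) (hZ : x ∉ D.Z i) : 0 < D.G2 i O.i2 O.ρ x := by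
  obtain ⟨I, hI⟩ := Nm_one O (D.f x)
  unfold G2
  rw [finprod_Nm O (hI x le_rfl)]
  have h1 : 0 < ∏ l ∈ I, D.Nm i O.i2 O.ρ l x := Finset.prod_pos fun l _ => Nm_pos O hx hZ l
  have h2 := det_pos D.herm x
  positivity

/-! ### at the crossing point -/

/-- the positive continuous function in `zz_norm` -/
theorem exists_k1 {U : Set M} {g : M → ℂ} {φ : M → ℝ} {U' : Set M} {g' : M → ℂ} {φ' : M → ℝ}
    (hU : D.p0 i ∈ U) (hU' : D.p0 i ∈ U') (hg : LocRep C2 (D.Nc (i + 1)) U g φ)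
    (hg' : LocRep C2 (D.Nc (D.i0 i)) U' g' φ') [T2Space M] :
    ∃ k : M → ℝ, (∀ᶠ x in 𝓝 (D.p0 i), ContinuousAt k x) ∧ 0 < k (D.p0 i) ∧
      ∀ᶠ x in 𝓝 (D.p0 i), ‖O.zz x‖ = k x * (‖g x‖ * ‖g' x‖ ^ D.s (i + 1)) ^ O.m := by
  have hp0 : D.p0 i ∈ O.W := O.Z_W ((D.mem_Z i).2 ⟨D.i0 i, D.i0_le i, (D.p0_mem i).2⟩)
  set V : Set M := O.W ∩ D.V0 i ∩ (U ∩ U') with hV
  have hVo : IsOpen V := (O.W_open.inter (D.isOpen_V0 i)).inter (hg.isOpen.inter hg'.isOpen)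
  have hpV : D.p0 i ∈ V := ⟨⟨hp0, D.p0_mem_V0 i⟩, hU, hU'⟩
  have e1 : Eqv D.f V (fun x => ‖O.zz x‖ ^ 2)
      (fun x => (D.Nc (i + 1) x * D.Nc (D.i0 i) x ^ D.s (i + 1)) ^ O.m) :=
    (O.zz_eqv.mono fun x hx => hx.1.1).trans (((D.eqv_succ i).mono fun x hx => hx.1.2).pow _)
  obtain ⟨v, hv, hv0, hveq, -⟩ := eqv_def e1
  set κ : M → ℝ := fun x => v x * (Real.exp (-φ x) * Real.exp (-φ' x) ^ D.s (i + 1)) ^ O.m with hκ
  have hκpos : ∀ x ∈ V, 0 < κ x := by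
    intro x hx
    have := hv0 x hx
    positivity
  have hκc : ∀ x ∈ V, ContinuousAt κ x := by
    intro x hx
    have c1 : ContinuousAt v x := (hv.continuousOn.continuousAt (hVo.mem_nhds hx))
    have c2 : ContinuousAt φ x := hg.smooth.continuousOn.continuousAt (hg.isOpen.mem_nhds hx.2.1)
    have c3 : ContinuousAt φ' x := hg'.smooth.continuousOn.continuousAt (hg'.isOpen.mem_nhds hx.2.2)
    exact c1.mul (((Real.continuous_exp.continuousAt.comp c2.neg).mul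
      ((Real.continuous_exp.continuousAt.comp c3.neg).pow _)).pow _)
  refine ⟨fun x => Real.sqrt (κ x), ?_, Real.sqrt_pos.2 (hκpos _ hpV), ?_⟩
  · filter_upwards [hVo.mem_nhds hpV] with x hx
    exact Real.continuous_sqrt.continuousAt.comp (hκc x hx)
  · filter_upwards [hVo.mem_nhds hpV] with x hx
    have h1 := hveq x hx
    rw [hg.eq x hx.2.1, hg'.eq x hx.2.2] at h1
    have h2 : ‖O.zz x‖ ^ 2 = κ x * ((‖g x‖ * ‖g' x‖ ^ D.s (i + 1)) ^ O.m) ^ 2 := by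
      rw [h1, hκ]
      simp only [mul_pow]
      ring
    have h3 : ‖O.zz x‖ = Real.sqrt (κ x * ((‖g x‖ * ‖g' x‖ ^ D.s (i + 1)) ^ O.m) ^ 2) := by
      rw [← h2, Real.sqrt_sq (norm_nonneg _)]
    rw [h3, Real.sqrt_mul (hκpos x hx).le, Real.sqrt_sq (by positivity)]

/-- the positive continuous function in `G_norm` -/
theorem exists_k2 {U' : Set M} {g' : M → ℂ} {φ' : M → ℝ} (hU' : D.p0 i ∈ U')
    (hg' : LocRep C2 (D.Nc (D.i0 i)) U' g' φ') [T2Space M] :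
    ∃ k : M → ℝ, (∀ᶠ x in 𝓝 (D.p0 i), ContinuousAt k x) ∧ 0 < k (D.p0 i) ∧
      ∀ᶠ x in 𝓝 (D.p0 i), Real.sqrt (D.G2 i O.i2 O.ρ x) *
        ‖(jac (chartAt C2 (D.p0 i)) x).det‖ = k x * ‖g' x‖ ^ D.s (i + 1) := by
  have hp0 : D.p0 i ∈ O.W := O.Z_W ((D.mem_Z i).2 ⟨D.i0 i, D.i0_le i, (D.p0_mem i).2⟩)
  set c := chartAt C2 (D.p0 i) with hc
  have hcA : c ∈ atlas C2 M := chart_mem_atlas C2 (D.p0 i)
  set V : Set M := O.W ∩ D.V0 i ∩ (U' ∩ c.source) with hV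
  have hVo : IsOpen V := (O.W_open.inter (D.isOpen_V0 i)).inter (hg'.isOpen.inter c.open_source)
  have hpV : D.p0 i ∈ V := ⟨⟨hp0, D.p0_mem_V0 i⟩, hU', mem_chart_source C2 (D.p0 i)⟩
  obtain ⟨I, hI⟩ := Nm_one O (D.f (D.p0 i) - 1)
  set I' : Finset ℤ := I ∪ Finset.Icc (D.i0 i) i with hI'
  have hbelow : ∀ x ∈ V, D.f (D.p0 i) - 1 < D.f x := fun x hx => D.V0_below i hx.1.2
  -- the product
  have e1 : Eqv D.f V (fun x => ∏ l ∈ I', D.Nm i O.i2 O.ρ l x)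
      (fun x => ∏ l ∈ I', if l ∈ Finset.Icc (D.i0 i) i then
        D.Nc (D.i0 i) x ^ D.m l (D.i0 i) else 1) := by
    refine Eqv.prod _ fun l _ => ?_
    by_cases hl : l ∈ Finset.Icc (D.i0 i) i
    · simp only [if_pos hl]
      rw [Finset.mem_Icc] at hl
      rw [Nm_le O hl.2]
      exact (D.eqv_le i hl.1 hl.2).mono fun x hx => hx.1.2
    · simp only [if_neg hl]
      rw [Finset.mem_Icc, not_and_or, not_le, not_le] at hl
      rcases Nm_cases O l with ⟨h, e⟩ | ⟨h, h2, e⟩ | ⟨h, h2, e⟩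
      · rw [e]
        exact (D.eqv_lt i (by omega)).mono fun x hx => hx.1.2
      · rw [e]
        exact Eqv.of_pos ((O.ρ_smooth l h h2).mono fun x hx => hx.1.1)
          (fun x hx => O.ρ_pos l h h2 x hx.1.1) (exists_bound_of_below hbelow _)
      · rw [e]; exact Eqv.refl _ _ _
  have e2 : ∀ x, (∏ l ∈ I', if l ∈ Finset.Icc (D.i0 i) i then
        D.Nc (D.i0 i) x ^ D.m l (D.i0 i) else 1) = D.Nc (D.i0 i) x ^ D.s (i + 1) := by
    intro x
    rw [← Finset.prod_filter]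
    have e3 : I'.filter (fun l => l ∈ Finset.Icc (D.i0 i) i) = Finset.Icc (D.i0 i) i := by
      ext l
      rw [Finset.mem_filter, hI', Finset.mem_union]
      tauto
    rw [e3, Finset.prod_pow_eq_pow_sum]
    congr 1
    exact D.hm.sum_eq_s D.word i
  obtain ⟨v, hv, hv0, hveq, -⟩ := eqv_def e1
  set κ : M → ℝ := fun x => v x * Real.exp (-φ' x) ^ D.s (i + 1) * Real.exp (-D.w x) *
    (loc11 c D.h (c x)).det.re with hκ
  have hκpos : ∀ x ∈ V, 0 < κ x := by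
    intro x hx
    have h1 := hv0 x hx
    have h2 := det_loc11_pos D.herm hcA (c.map_source hx.2.2)
    positivity
  have hκc : ∀ x ∈ V, ContinuousAt κ x := by
    intro x hx
    have c1 : ContinuousAt v x := (hv.continuousOn.continuousAt (hVo.mem_nhds hx))
    have c3 : ContinuousAt φ' x := hg'.smooth.continuousOn.continuousAt (hg'.isOpen.mem_nhds hx.2.1)
    have c4 : ContinuousAt D.w x := D.w_smooth.continuous.continuousAt
    have c5 : ContinuousAt (fun x => (loc11 c D.h (c x)).det.re) x := by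
      have h1 : ContinuousAt (fun z => (loc11 c D.h z).det.re) (c x) :=
        (contDiffOn_det D.herm hcA).continuousOn.continuousAt
          (c.open_target.mem_nhds (c.map_source hx.2.2))
      exact ContinuousAt.comp (g := fun z => (loc11 c D.h z).det.re) h1
        (c.continuousAt hx.2.2)
    exact ((c1.mul ((Real.continuous_exp.continuousAt.comp c3.neg).pow _)).mul
      (Real.continuous_exp.continuousAt.comp c4.neg)).mul c5
  refine ⟨fun x => Real.sqrt (κ x), ?_, Real.sqrt_pos.2 (hκpos _ hpV), ?_⟩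
  · filter_upwards [hVo.mem_nhds hpV] with x hx
    exact Real.continuous_sqrt.continuousAt.comp (hκc x hx)
  · filter_upwards [hVo.mem_nhds hpV] with x hx
    have h1 := hveq x hx
    rw [e2 x, hg'.eq x hx.2.1] at h1
    have h0 : 0 ≤ D.G2 i O.i2 O.ρ x := (flatK O).nonneg hx.1.1
    have h2 : D.G2 i O.i2 O.ρ x * ‖(jac c x).det‖ ^ 2 = κ x * (‖g' x‖ ^ D.s (i + 1)) ^ 2 := by
      have h3 : (∏ᶠ l, D.Nm i O.i2 O.ρ l x) = ∏ l ∈ I', D.Nm i O.i2 O.ρ l x :=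
        finprod_Nm O fun l hl => hI x (hbelow x hx).le l fun h => hl (Finset.mem_union_left _ h)
      unfold G2
      rw [h3, h1, hκ]
      simp only
      rw [det_loc11_re, c.left_inv hx.2.2, mul_pow]
      ring
    have h4 : Real.sqrt (D.G2 i O.i2 O.ρ x) * ‖(jac c x).det‖ =
        Real.sqrt (D.G2 i O.i2 O.ρ x * ‖(jac c x).det‖ ^ 2) := by
      rw [Real.sqrt_mul h0, Real.sqrt_sq (norm_nonneg _)]
    rw [h4, h2, Real.sqrt_mul (hκpos x hx).le, Real.sqrt_sq (by positivity)]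

/-- **The raw geometry.** -/
theorem exists_rawA [T2Space M] (O : D.OnW i)
    (conn : ∀ a, ∃ b, ∃ Q : Set M, IsPreconnected Q ∧ D.Z i ∪ {x | D.f x < b} ⊆ Q ∧
      Q ⊆ D.Z i ∪ {x | D.f x < a}) :
    ∃ R : RawA M, R.f = D.f ∧ R.Z = D.Z i := by
  obtain ⟨U, g, φ, hU, hg⟩ := D.Nc_norm (i + 1) (D.p0 i)
  obtain ⟨U', g', φ', hU', hg'⟩ := D.Nc_norm (D.i0 i) (D.p0 i)
  obtain ⟨k1, k1c, k1p, k1e⟩ := exists_k1 O hU hU' hg hg'
  obtain ⟨k2, k2c, k2p, k2e⟩ := exists_k2 O hU' hg'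
  obtain ⟨v, hv, hv0, hveq, K, hK, hvK⟩ := eqv_def O.zz_eqv
  obtain ⟨bo, hbo⟩ := D.N_out i
  exact ⟨{
    f := D.f
    f_cont := D.f_cont
    f_proper := D.f_proper
    Z := D.Z i
    Z_closed := D.Z_closed i
    C := D.C (i + 1)
    C_closed := D.C_closed (i + 1)
    C_below := by
      rcases (D.C (i + 1)).eq_empty_or_nonempty with h | h
      · exact ⟨0, fun x hx => by rw [h] at hx; exact hx.elim⟩
      · obtain ⟨x0, -, hx0⟩ := (D.C_cpt (i + 1)).exists_isMinOn h D.f_cont.continuousOn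
        exact ⟨D.f x0, fun x hx => hx0 hx⟩
    A := D.N i
    A_cont := (D.N_norm i).continuous
    A_nonneg := D.N_nonneg i
    A_zero := fun x => Iff.rfl
    A_in := D.N_in i
    A_out := ⟨bo, 1, one_pos, fun x hx => (hbo x hx.le).ge⟩
    W := O.W
    W_open := O.W_open
    Z_W := O.Z_W
    W_in := O.W_in
    zz := O.zz
    zz_hol := O.zz_hol
    zz_in := by
      intro ε hε
      -- `|zz|² ≤ K (N (i+1))^m < ε²`
      obtain ⟨aW, haW⟩ := O.W_in
      obtain ⟨a, ha⟩ := D.N_in (i + 1) (min 1 (ε ^ 2 / K)) (by positivity)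
      refine ⟨min a (min aW (-K)), fun x hx => ?_⟩
      have hx1 : D.f x < a := lt_of_lt_of_le hx (min_le_left _ _)
      have hx2 : x ∈ O.W := haW x (lt_of_lt_of_le hx ((min_le_right _ _).trans (min_le_left _ _)))
      have hx3 : D.f x ≤ -K := (lt_of_lt_of_le hx ((min_le_right _ _).trans (min_le_right _ _))).le
      have h1 := hveq x hx2
      have h2 := (hvK x hx2 hx3).2
      have h3 := ha x hx1
      have h4 := D.N_nonneg (i + 1) x
      have h5 : D.N (i + 1) x ^ O.m ≤ D.N (i + 1) x :=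
        pow_le_of_le_one h4 (h3.le.trans (min_le_left _ _)) O.m_pos.ne'
      have h6 : D.N (i + 1) x < ε ^ 2 / K := lt_of_lt_of_le h3 (min_le_right _ _)
      have h7 : ‖O.zz x‖ ^ 2 < ε ^ 2 := by
        calc ‖O.zz x‖ ^ 2 = v x * D.N (i + 1) x ^ O.m := h1
          _ ≤ K * D.N (i + 1) x := mul_le_mul h2 h5 (by positivity) hK.le
          _ < K * (ε ^ 2 / K) := mul_lt_mul_of_pos_left h6 hK
          _ = ε ^ 2 := by field_simp
      exact lt_of_pow_lt_pow_left₀ 2 hε.le h7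
    zz_zero := by
      intro x hx
      have h1 := hveq x hx
      have hvx := hv0 x hx
      have h2 : O.zz x = 0 ↔ D.N (i + 1) x = 0 := by
        constructor
        · intro h
          rw [h, norm_zero] at h1
          have h3 : v x * D.N (i + 1) x ^ O.m = 0 := by rw [← h1]; norm_num
          exact pow_eq_zero_iff O.m_pos.ne' |>.1 ((mul_eq_zero.1 h3).resolve_left hvx.ne')
        · intro h
          rw [h, zero_pow O.m_pos.ne', mul_zero] at h1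
          exact norm_eq_zero.1 (pow_eq_zero_iff two_ne_zero |>.1 h1)
      rw [h2, D.zero (i + 1) x, D.mem_Z i]
      constructor
      · rintro ⟨j, hj, hxj⟩
        rcases hj.eq_or_lt with rfl | hlt
        · exact Or.inr hxj
        · exact Or.inl ⟨j, by omega, hxj⟩
      · rintro (⟨j, hj, hxj⟩ | hxC)
        · exact ⟨j, by omega, hxj⟩
        · exact ⟨i + 1, le_rfl, hxC⟩
    m := O.m
    m_pos := O.m_pos
    μ := D.s (i + 1)
    p0 := D.p0 i
    p0_Z := (D.mem_Z i).2 ⟨D.i0 i, D.i0_le i, (D.p0_mem i).2⟩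
    p0_C := (D.p0_mem i).1
    cross := fun x hx hC => D.cross i hx hC
    a := g
    b := g'
    a_hol := by
      filter_upwards [hg.isOpen.mem_nhds hU] with x hx
      exact (hg.hol x hx).mdifferentiableAt (hg.isOpen.mem_nhds hx)
    b_hol := by
      filter_upwards [hg'.isOpen.mem_nhds hU'] with x hx
      exact (hg'.hol x hx).mdifferentiableAt (hg'.isOpen.mem_nhds hx)
    a_zero := by
      filter_upwards [hg.isOpen.mem_nhds hU] with x hx
      rw [← hg.eq_zero_iff hx, D.Nc_zero]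
    b_zero := by
      filter_upwards [hg'.isOpen.mem_nhds hU', (D.isOpen_V0 i).mem_nhds (D.p0_mem_V0 i)]
        with x hx hxV
      rw [← hg'.eq_zero_iff hx, D.Nc_zero, D.mem_Z i]
      constructor
      · intro h
        exact ⟨D.i0 i, D.i0_le i, h⟩
      · rintro ⟨j, hj, hxj⟩
        by_contra hne
        have : j ≠ D.i0 i := by rintro rfl; exact hne hxj
        exact D.V0_notMem i hxV hj this hxj
    indep := D.transv (i + 1) (D.p0 i) (D.p0_mem i).1 (D.p0_mem i).2 U g φ U' g' φ' hU hU' hg hg'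
    k₁ := k1
    k₁_cont := k1c
    k₁_pos := k1p
    zz_norm := k1e
    G := fun x => Real.sqrt (D.G2 i O.i2 O.ρ x)
    G_pos := fun x hx hZ => Real.sqrt_pos.2 (G2_pos O hx hZ)
    G_loc := by
      intro x hx
      obtain ⟨V, hV, hxV, -, σ, hσ, hσG⟩ := (flatK O).sqrt_loc hx
      exact ⟨V, hV, hxV, σ, hσ, hσG⟩
    k₂ := k2
    k₂_cont := k2c
    k₂_pos := k2p
    G_norm := k2e
    conn := conn }, rfl, rfl⟩

end Geo

end Vale.Agent.P267.H821
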