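import Vale.Agent.P267.H661.XTFin
import Vale.Agent.P267.H469.Betti

/-!
# P267 / H821 (GX-K): exact forms of type `(1,1)` on a surface with `b_1 = 1`

On the infinite cyclic covering `q : M → X` every exact form of type `(1,1)` on `X` is `∂∂̄` of a
function `c F + ψ ∘ q`.
-/

set_option linter.unusedVariables false
set_option linter.unusedSectionVars false

open scoped Manifold ContDiff ComplexConjugate Matrix ComplexOrder Topology
open MeasureTheory Set Filter Function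

set_option maxSynthPendingDepth 3

noncomputable section

namespace Vale.Agent.P267.H469.Calc

variable {Ω0 Ω1 Ω2 Ω3 : Type*} [AddCommGroup Ω0] [Module ℂ Ω0] [AddCommGroup Ω1]
    [Module ℂ Ω1] [AddCommGroup Ω2] [Module ℂ Ω2] [AddCommGroup Ω3] [Module ℂ Ω3]
    {C : Calc Ω0 Ω1 Ω2 Ω3}

theorem d1_p10_theta (A : C.Gaud) : C.d1 (C.p10 A.θ) = - C.d1 (C.p01 A.θ) := by
  rw [eq_neg_iff_add_eq_zero, ← map_add, C.p1_add, A.closed]

theorem d1_p10_d0 (u : Ω0) : C.d1 (C.p10 (C.d0 u)) = - C.d1 (C.p01 (C.d0 u)) := by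
  rw [eq_neg_iff_add_eq_zero, ← map_add, C.p1_add, C.d1d0]

/-- exact forms of type `(1,1)` -/
theorem exact11 (A : C.Gaud) (h0 : C.Z10 = ⊥) {a : Ω1} (h11 : C.is11 (C.d1 a)) :
    ∃ (t : ℂ) (u : Ω0), C.d1 a = t • C.d1 (C.p01 A.θ) + C.d1 (C.p01 (C.d0 u)) := by
  have h1 : C.p02 (C.d1 (C.p01 a)) = 0 := by
    have h3 := h11.p02_eq
    rw [← C.p1_add a, map_add, map_add, C.integ, zero_add] at h3
    exact h3
  have h2 : C.p20 (C.d1 (C.p10 a)) = 0 := by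
    have h3 := h11.p20_eq
    rw [← C.p1_add a, map_add, map_add, C.integ', add_zero] at h3
    exact h3
  obtain ⟨t, u, hu⟩ := dbar_closed' A h0 (C.p01_idem a) h1
  have h3 : C.is01 (C.c1 (C.p10 a)) := by
    unfold is01
    rw [← C.c1_p10, C.p10_idem]
  have h4 : C.p02 (C.d1 (C.c1 (C.p10 a))) = 0 := by
    rw [C.d1c, ← C.c2_p20, h2, map_zero]
  obtain ⟨s, v, hv⟩ := dbar_closed' A h0 h3 h4
  have h5 : C.p10 a = conj s • C.p10 A.θ + C.p10 (C.d0 (C.c0 v)) := by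
    have h6 := congrArg C.c1 hv
    rw [C.c1c1, map_add, map_smulₛₗ, C.c1_p01, C.c1_p01, A.real, ← C.d0c] at h6
    exact h6
  refine ⟨t - conj s, u - C.c0 v, ?_⟩
  calc C.d1 a = C.d1 (C.p10 a) + C.d1 (C.p01 a) := by rw [← map_add, C.p1_add]
    _ = _ := by
      rw [h5, hu]
      simp only [map_add, map_sub, map_smul]
      rw [d1_p10_theta, d1_p10_d0]
      module

/-- exact real forms of type `(1,1)` -/
theorem exact11_real (A : C.Gaud) (h0 : C.Z10 = ⊥) {a : Ω1} (h11 : C.is11 (C.d1 a))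
    (hr : C.c2 (C.d1 a) = - C.d1 a) :
    ∃ (t : ℝ) (u : Ω0), C.c0 u = u ∧
      C.d1 a = (t : ℂ) • C.d1 (C.p01 A.θ) + C.d1 (C.p01 (C.d0 u)) := by
  obtain ⟨t, u, h⟩ := exact11 A h0 h11
  have h1 : C.c2 (C.d1 (C.p01 A.θ)) = - C.d1 (C.p01 A.θ) := by
    rw [← C.d1c, C.c1_p01, A.real, d1_p10_theta]
  have h2 : C.c2 (C.d1 (C.p01 (C.d0 u))) = - C.d1 (C.p01 (C.d0 (C.c0 u))) := by
    rw [← C.d1c, C.c1_p01, ← C.d0c, d1_p10_d0]
  have h3 : C.d1 a = conj t • C.d1 (C.p01 A.θ) + C.d1 (C.p01 (C.d0 (C.c0 u))) := by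
    have h4 := hr
    rw [h, map_add, map_smulₛₗ, h1, h2] at h4
    have h5 := congrArg (fun b => -b) h4
    simp only [neg_neg] at h5
    rw [h, ← h5]
    module
  refine ⟨t.re, (1 / 2 : ℂ) • (u + C.c0 u), ?_, ?_⟩
  · rw [map_smulₛₗ, map_add, C.c0c0, add_comm]
    congr 1
    simp only [one_div, map_inv₀]
    rw [Complex.conj_ofNat]
  · have h6 : C.d1 a = (1 / 2 : ℂ) • (C.d1 a + C.d1 a) := by
      rw [← two_smul ℂ, smul_smul]; norm_num
    rw [h6]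
    nth_rewrite 1 [h]
    rw [h3]
    have h7 : (t.re : ℂ) = (1 / 2 : ℂ) * (t + conj t) := by
      rw [Complex.add_conj]; push_cast; ring
    rw [h7]
    simp only [map_smul, map_add]
    module

end Vale.Agent.P267.H469.Calc

namespace Vale.Agent.P267.H821

open Vale.Agent.P267.FL Vale.Agent.P272.K.LIN Vale.Agent.P267.XT Vale.Agent.P267.H857
open Vale.Agent.P267.H661
open Vale.Agent.P267.H469 (S0 S10 S01 S11 Om1 Om2 Om3 calcH gaudScal C0L C1L C2L D0 D1 P01 trL one0)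

variable {M X : Type} [TopologicalSpace M] [ChartedSpace C2 M] [TopologicalSpace X]
    [ChartedSpace C2 X] {q : M → X} (Q : QData q) [IsManifold 𝓘(ℂ, C2) ω X]
    [IsManifold 𝓘(ℂ, C2) ω M]

theorem ddb_F_eq (y : M) : ddb (cx Q.F) y = del1 Q.theta.f01 (q y) := by
  rw [← Q.cm.del1_comp]
  unfold ddb
  congr 1
  funext z
  exact (Q.theta_f01 z).symm

theorem ddb_cx_conj {s : X → ℂ} (hs : H469.cj0 s = s) : (fun x => ((s x).re : ℂ)) = s := by
  funext x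
  have h1 := congrFun hs x
  exact Complex.conj_eq_iff_re.1 h1

/-- **`∂∂̄`-lemma on a surface with `b_1 = 1`.** -/
theorem ddb_of_exact [CompactSpace X] [T2Space X] [ConnectedSpace X] [PreconnectedSpace M]
    [Nonempty M] {g : X → Matrix (Fin 2) (Fin 2) ℂ} (hg : IsHerm g) (hb : BettiSucc X 0 1)
    {Θ : X → Matrix (Fin 2) (Fin 2) ℂ} (hΘ : ∀ x, (Θ x).IsHermitian) {A : OneF X} (hA : A.Smooth)
    (h20 : ∀ x, A.d.f20 x = 0) (h11 : ∀ x, A.d.f11 x = Θ x) (h02 : ∀ x, A.d.f02 x = 0) :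
    ∃ (c : ℝ) (ψ : X → ℝ), CkFn C2 ∞ ψ ∧
      ∀ y, Θ (q y) = ddb (fun y => ((c * Q.F y + ψ (q y) : ℝ) : ℂ)) y := by
  set C := calcH hg with hC
  obtain ⟨G, u, hu, hG, -, -⟩ := (gaudScal hg).exists_gaud Q.D1_thetaOm Q.C1L_thetaOm
    Q.thetaOm_ne (Q.b1le hg hb)
  have h0 : C.Z10 = ⊥ := by
    rw [Submodule.eq_bot_iff]
    intro w hw
    obtain ⟨h1, h2⟩ := C.mem_Z10.1 hw
    exact C.hol1_eq_zero (Q.b1le hg hb) h1 h2
  -- the form as an element of `Om1`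
  set a : Om1 X := (⟨A.f10, hA.s10⟩, ⟨A.f01, hA.s01⟩) with ha
  have hd20 : ((D1 a).1 : X → ℂ) = 0 := funext h20
  have hd11 : ((D1 a).2.1 : X → Matrix (Fin 2) (Fin 2) ℂ) = Θ := funext h11
  have hd02 : ((D1 a).2.2 : X → ℂ) = 0 := funext h02
  have e20 : (D1 a).1 = 0 := Subtype.ext hd20
  have e02 : (D1 a).2.2 = 0 := Subtype.ext hd02
  have k11 : C.is11 (C.d1 a) := by
    change H469.P11 (D1 a) = D1 a
    rw [H469.P11_apply]
    exact Prod.ext e20.symm (Prod.ext rfl e02.symm)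
  have hr : C.c2 (C.d1 a) = - C.d1 a := by
    change C2L (D1 a) = - D1 a
    refine Prod.ext (Subtype.ext ?_) (Prod.ext (Subtype.ext ?_) (Subtype.ext ?_))
    · change H469.cj0 ((D1 a).2.2 : X → ℂ) = ((-(D1 a)).1 : X → ℂ)
      rw [Prod.fst_neg, e20, hd02, H469.cj0_zero]
      simp
    · change H469.cj11 ((D1 a).2.1 : X → Matrix (Fin 2) (Fin 2) ℂ) =
        -((D1 a).2.1 : X → Matrix (Fin 2) (Fin 2) ℂ)
      rw [hd11]
      funext x
      ext i j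
      change - conj (Θ x j i) = - Θ x i j
      have h1 := congrFun (congrFun (hΘ x) i) j
      rw [Matrix.conjTranspose_apply] at h1
      rw [← h1]
      rfl
    · change H469.cj0 ((D1 a).1 : X → ℂ) = ((-(D1 a)).2.2 : X → ℂ)
      rw [Prod.snd_neg, Prod.snd_neg, e02, hd20, H469.cj0_zero]
      simp
  obtain ⟨t, v, hv, hE⟩ := H469.Calc.exact11_real G h0 k11 hr
  -- real functions
  set w : S0 X := v - (t : ℂ) • u with hw
  have hwr : C0L w = w := by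
    have h1 : C0L v = v := hv
    have h2 : C0L u = u := hu
    rw [hw, map_sub, map_smulₛₗ, h1, h2, Complex.conj_ofReal]
  have hwr' : H469.cj0 (w : X → ℂ) = w := congrArg (fun s : S0 X => (s : X → ℂ)) hwr
  have hwck : CkFn C2 ∞ (w : X → ℂ) := H661.reg0_iff.1 w.2
  have hψ : CkFn C2 ∞ (reF (w : X → ℂ)) := reF_ck hwck
  have hE2 : C.d1 a = (t : ℂ) • C.d1 (C.p01 Q.thetaOm) + C.d1 (C.p01 (C.d0 w)) := by
    rw [hE, hG, hw]
    simp only [map_sub, map_smul]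
    module
  have hE3 : Θ = fun x => (t : ℂ) • del1 Q.theta.f01 x + ddb (w : X → ℂ) x := by
    have h1 := congrArg (fun F : Om2 X => (F.2.1 : X → Matrix (Fin 2) (Fin 2) ℂ)) hE2
    have h2 : ((C.d1 a).2.1 : X → Matrix (Fin 2) (Fin 2) ℂ) = Θ := hd11
    have h3 : (((t : ℂ) • C.d1 (C.p01 Q.thetaOm) + C.d1 (C.p01 (C.d0 w))).2.1 :
        X → Matrix (Fin 2) (Fin 2) ℂ) = fun x => (t : ℂ) • ((D1 (P01 Q.thetaOm)).2.1 :
        X → Matrix (Fin 2) (Fin 2) ℂ) x + ((D1 (P01 (D0 w))).2.1 :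
        X → Matrix (Fin 2) (Fin 2) ℂ) x := rfl
    rw [← h2]
    refine h1.trans (h3.trans ?_)
    funext x
    rw [H469.D1_P01, H469.D1_P01]
    rfl
  refine ⟨t, reF (w : X → ℂ), hψ, fun y => ?_⟩
  rw [hE3]
  have hw1 : (fun x => ((reF (w : X → ℂ) x : ℝ) : ℂ)) = (w : X → ℂ) := ddb_cx_conj hwr'
  have h4 : (fun y => ((t * Q.F y + reF (w : X → ℂ) (q y) : ℝ) : ℂ)) =
      fun y => (t : ℂ) * cx Q.F y + (w : X → ℂ) (q y) := by
    funext y
    have h5 : ((reF (w : X → ℂ) (q y) : ℝ) : ℂ) = (w : X → ℂ) (q y) := congrFun hw1 (q y)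
    push_cast
    rw [h5]
    rfl
  rw [h4]
  have hF : CkFn C2 2 (cx Q.F) := ckFn_two' (H661.reg0_iff.1 Q.reg_cxF)
  have hF' : CkFn C2 2 fun y => (t : ℂ) * cx Q.F y := fun e he x hx =>
    contDiffAt_const.mul (hF e he x hx)
  have hwq : CkFn C2 2 fun y => (w : X → ℂ) (q y) :=
    ckFn_two' (H661.reg0_iff.1 (Q.cm.reg0_comp w.2))
  rw [ddb_add hF' hwq, ddb_smul hF, ddb_F_eq, Q.cm.ddb_comp]

/-- the same on the infinite cyclic covering `Cov hh` -/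
theorem ddb_cov {X : Type} [TopologicalSpace X] [ChartedSpace C2 X] [IsManifold 𝓘(ℂ, C2) ω X]
    [CompactSpace X] [T2Space X] [ConnectedSpace X] {hh : C(X, UnitAddCircle)}
    (hs : H158.SmoothC (E := C2) hh) (hp : H158.Primitive hh)
    {g : X → Matrix (Fin 2) (Fin 2) ℂ} (hg : IsHerm g) (hb : BettiSucc X 0 1)
    {Θ : X → Matrix (Fin 2) (Fin 2) ℂ} (hΘ : ∀ x, (Θ x).IsHermitian) {A : OneF X} (hA : A.Smooth)
    (h20 : ∀ x, A.d.f20 x = 0) (h11 : ∀ x, A.d.f11 x = Θ x) (h02 : ∀ x, A.d.f02 x = 0) :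
    ∃ (c : ℝ) (ψ : X → ℝ), ContMDiff 𝓘(ℝ, C2) 𝓘(ℝ, ℝ) ∞ (fun y : H158.Cov hh =>
        c * H158.Cov.f y + ψ (H158.Cov.p y)) ∧
      ∀ y : H158.Cov hh, Θ (H158.Cov.p y) =
        ddb (fun y : H158.Cov hh => ((c * H158.Cov.f y + ψ (H158.Cov.p y) : ℝ) : ℂ)) y := by
  have : IsManifold 𝓘(ℝ, C2) ∞ X := H158.isManifold_real
  have : IsManifold 𝓘(ℝ, C2) ∞ (H158.Cov hh) := H158.isManifold_real
  have : LocallyConnectedSpace X := ChartedSpace.locallyConnectedSpace C2 X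
  have : ConnectedSpace (H158.Cov hh) := H158.Cov.connectedSpace hp
  obtain ⟨θ, hθ⟩ := hs.exists_isDiffC
  obtain ⟨c, ψ, hψ, h⟩ := ddb_of_exact (covQ hh hθ) hg hb hΘ hA h20 h11 h02
  refine ⟨c, ψ, ?_, h⟩
  have h1 : CkFn C2 ∞ fun y : H158.Cov hh => ψ (H158.Cov.p y) := ck_comp (covQ hh hθ).cm hψ
  exact (contMDiff_const.mul (H158.Cov.contMDiff_f hθ)).add (contMDiff_of_ck h1)

end Vale.Agent.P267.H821
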