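import Vale.Agent.P267.H821.FlatK

/-!
# P267 / H821 (GX-K): a locally finite product of norm functions times a potential
-/

set_option linter.unusedVariables false
set_option linter.unusedSectionVars false

open scoped Manifold ContDiff ComplexConjugate Matrix ComplexOrder Topology
open MeasureTheory Set Filter Function

noncomputable section

namespace Vale.Agent.P267.H821

open FL H757 H332

variable {X : Type*} [TopologicalSpace X] [ChartedSpace C2 X] [IsManifold 𝓘(ℂ, C2) ω X]

theorem curvN_const_one (x : X) : curvN (fun _ : X => (1 : ℝ)) x = 0 := by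
  have hrep : LocRep C2 (fun _ : X => (1 : ℝ)) univ (fun _ => 1) (fun _ => 0) :=
    ⟨isOpen_univ, mdifferentiableOn_const, fun V _ _ hne => ⟨hne.some, hne.some_mem, one_ne_zero⟩,
      contMDiffOn_const, fun y _ => by simp⟩
  rw [H332.curvN_eq hrep (mem_univ x)]
  simpa using ddz_const 0 (chartAt C2 x x)

/-- curvature of a finite product -/
theorem curvN_finset_prod {Λ : Type*} (I : Finset Λ) {N : Λ → X → ℝ}
    (hN : ∀ l ∈ I, IsNormFn C2 (N l)) (x : X) :
    curvN (fun y => ∏ l ∈ I, N l y) x = ∑ l ∈ I, curvN (N l) x := by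
  classical
  induction I using Finset.induction_on with
  | empty => simpa using curvN_const_one x
  | insert a I ha ih =>
    have h1 : IsNormFn C2 (N a) := hN a (by simp)
    have h2 : ∀ l ∈ I, IsNormFn C2 (N l) := fun l hl => hN l (by simp [hl])
    have h3 : IsNormFn C2 fun y => ∏ l ∈ I, N l y := isNormFn_prod I h2
    simp only [Finset.prod_insert ha, Finset.sum_insert ha]
    rw [curvN_mul h1 h3, ih h2]

/-- a norm function which is `1` near `x` has curvature zero at `x` -/
theorem curvN_of_one {N : X → ℝ} (hN : IsNormFn C2 N) {x : X} (h : ∀ᶠ y in 𝓝 x, N y = 1) :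
    curvN N x = 0 := by
  rw [curvN_congr hN (N' := fun _ => (1 : ℝ)) h, curvN_const_one]

/-- curvature of a locally finite product -/
theorem curvN_finprod {Λ : Type*} {N : Λ → X → ℝ} (hN : ∀ l, IsNormFn C2 (N l))
    (hlf : LocallyFinite fun l => mulSupport (N l)) (x : X) :
    curvN (fun y => ∏ᶠ l, N l y) x = ∑ᶠ l, curvN (N l) x := by
  obtain ⟨I, hI⟩ := hlf.exists_finset_mulSupport x
  have h1 : (fun y => ∏ᶠ l, N l y) =ᶠ[𝓝 x] fun y => ∏ l ∈ I, N l y := by
    filter_upwards [hI] with y hy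
    exact finprod_eq_prod_of_mulSupport_subset _ hy
  rw [curvN_congr (isNormFn_finprod hN hlf) h1, curvN_finset_prod I fun l _ => hN l]
  symm
  refine finsum_eq_sum_of_support_subset _ fun l hl => ?_
  by_contra hlI
  refine hl (curvN_of_one (hN l) ?_)
  filter_upwards [hI] with y hy
  by_contra hne
  exact hlI (hy hne)

theorem finprod_eq_zero_iff' {Λ : Type*} {N : Λ → X → ℝ}
    (hlf : LocallyFinite fun l => mulSupport (N l)) (x : X) :
    (∏ᶠ l, N l x) = 0 ↔ ∃ l, N l x = 0 := by
  obtain ⟨I, hI⟩ := hlf.exists_finset_mulSupport x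
  have hx : mulSupport (fun l => N l x) ⊆ I := hI.self_of_nhds
  rw [finprod_eq_prod_of_mulSupport_subset _ hx, Finset.prod_eq_zero_iff]
  constructor
  · rintro ⟨l, -, hl⟩
    exact ⟨l, hl⟩
  · rintro ⟨l, hl⟩
    refine ⟨l, hx ?_, hl⟩
    rw [mem_mulSupport, hl]
    exact zero_ne_one

/-- **GX-K, local part.** `N l` norm functions on the surface, `J` a set of indices such that the
factors outside `J` are flat on `W`; if the sum of all curvatures is `∂∂̄ log det h - ∂∂̄ w` on `W`,
then `(∏_{l ∈ J} N l) e^{-w} det h` is locally `|θ|²`, `θ` a holomorphic two-form. -/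
theorem flatK_family {Λ : Type*} {N : Λ → X → ℝ} (hN : ∀ l, IsNormFn C2 (N l)) (J : Set Λ)
    (hlf : LocallyFinite fun l : J => mulSupport (N l)) {W : Set X} (hW : IsOpen W)
    {h : X → Matrix (Fin 2) (Fin 2) ℂ} (hh : IsHerm h) {w : X → ℝ}
    (hw : ContMDiffOn 𝓘(ℝ, C2) 𝓘(ℝ) ∞ w W)
    (hout : ∀ l ∉ J, ∀ y ∈ W, curvN (N l) y = 0)
    (hcurv : ∀ y ∈ W, (∑ᶠ l, curvN (N l) y) = ricF h y - ddb (fun x => (w x : ℂ)) y) :
    FlatK (fun y => (∏ᶠ l : J, N l y) * Real.exp (-w y) * (h y).det.re) W := by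
  have h1 : IsNormFn C2 fun y => ∏ᶠ l : J, N l y := isNormFn_finprod (fun l : J => hN l) hlf
  refine flatK_of_curv hW (h1.on W) hh hw fun y hy => ?_
  rw [curvN_finprod (fun l : J => hN l) hlf y, ← hcurv y hy,
    finsum_set_coe_eq_finsum_mem (f := fun l => curvN (N l) y)]
  refine finsum_congr fun l => ?_
  by_cases hl : l ∈ J
  · simp [hl]
  · simp [hl, hout l hl y hy]

/-- the value of a `FlatK` function is a square of an absolute value -/
theorem FlatK.nonneg {G : X → ℝ} {W : Set X} (h : FlatK G W) {x : X} (hx : x ∈ W) : 0 ≤ G x := by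
  obtain ⟨U, θ, hU, hxU, -, -, hG⟩ := h x hx
  rw [← hG x hxU]
  positivity

theorem FlatK.mono {G : X → ℝ} {W W' : Set X} (h : FlatK G W) (hW' : IsOpen W') (hWW : W' ⊆ W) :
    FlatK G W' := by
  intro x hx
  obtain ⟨U, θ, hU, hxU, hUW, hhol, hG⟩ := h x (hWW hx)
  refine ⟨U ∩ W', θ, hU.inter hW', ⟨hxU, hx⟩, inter_subset_right, fun c hc => ?_, fun y hy => hG y hy.1⟩
  exact (hhol c hc).mono fun z hz => ⟨hz.1, hz.2.1⟩

end Vale.Agent.P267.H821
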