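import Vale.Agent.P267.H821.Dv

/-!
# P267 / H821 (LINE X, step (A3)): the geometry of the chain of curves with norm functions

`Geo M`: the curves `C l`, the norm functions `N l` of the (gauged) sections, the exact functions.
-/

set_option linter.unusedVariables false
set_option linter.unusedSectionVars false

open scoped Manifold ContDiff ComplexConjugate Matrix ComplexOrder Topology
open MeasureTheory Set Filter Function

noncomputable section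

namespace Vale.Agent.P267.H821

open FL H757 H332 H781

/-- The chain of curves `C l` on a surface `M` with height function `f`, norm functions `Nc l` of the
curves and `N l` of the divisors `D_l = C_l + ∑_{j ∈ I_l} D_j`, and exact functions. -/
structure Geo (M : Type*) [TopologicalSpace M] [ChartedSpace C2 M] where
  f : M → ℝ
  f_cont : Continuous f
  f_proper : ∀ a b, IsCompact (f ⁻¹' Icc a b)
  s : ℤ → ℕ
  word : Word s
  C : ℤ → Set M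
  C_cpt : ∀ l, IsCompact (C l)
  C_far : ∀ b : ℝ, ∃ L : ℤ, ∀ l, L ≤ l → ∀ x ∈ C l, b ≤ f x
  Nc : ℤ → M → ℝ
  Nc_norm : ∀ l, IsNormFn C2 (Nc l)
  Nc_zero : ∀ l x, Nc l x = 0 ↔ x ∈ C l
  Nc_in : ∀ l, ∃ K : ℝ, 0 < K ∧ ∀ x, f x ≤ -K → K⁻¹ ≤ Nc l x ∧ Nc l x ≤ K
  N : ℤ → M → ℝ
  N_norm : ∀ l, IsNormFn C2 (N l)
  div : ∀ l, Eqv f univ (N l) (fun x => Nc l x * ∏ j ∈ Iv s l, N j x)
  zero : ∀ l x, N l x = 0 ↔ ∃ j ≤ l, x ∈ C j
  disj : ∀ l j, j < l → j ≠ l - s l → Disjoint (C l) (C j)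
  node : ∀ l, ∃ p, C l ∩ C (l - s l) = {p}
  transv : ∀ l p, p ∈ C l → p ∈ C (l - s l) → ∀ U g φ U' g' φ', p ∈ U → p ∈ U' →
    LocRep C2 (Nc l) U g φ → LocRep C2 (Nc (l - s l)) U' g' φ' →
      LinearIndependent ℂ ![mfderiv 𝓘(ℂ, C2) 𝓘(ℂ) g p, mfderiv 𝓘(ℂ, C2) 𝓘(ℂ) g' p]
  N_in : ∀ l, ∀ ε > 0, ∃ a, ∀ x, f x < a → N l x < ε
  N_one : ∀ a : ℝ, ∃ K : ℤ, ∀ l, l ≤ K → ∀ x, a ≤ f x → N l x = 1
  N_out : ∀ l, ∃ b, ∀ x, b ≤ f x → N l x = 1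
  exact : ∀ b : ℝ, ∃ L : ℤ, ∀ l, L ≤ l → ∃ ζ : M → ℂ,
    (∀ x, f x < b → MDifferentiableAt 𝓘(ℂ, C2) 𝓘(ℂ) ζ x) ∧ ∀ x, f x < b → ‖ζ x‖ ^ 2 = N l x
  h : M → Matrix (Fin 2) (Fin 2) ℂ
  herm : IsHerm h
  w : M → ℝ
  w_smooth : ContMDiff 𝓘(ℝ, C2) 𝓘(ℝ) ∞ w
  curv : ∀ y, (∑ᶠ l, curvN (N l) y) = ricF h y - ddb (fun x => (w x : ℂ)) y

namespace Geo

variable {M : Type*} [TopologicalSpace M] [ChartedSpace C2 M] [IsManifold 𝓘(ℂ, C2) ω M]
  (D : Geo M)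

/-- the positive factor in `div` -/
def u (l : ℤ) : M → ℝ := (D.div l).choose

theorem u_spec (l : ℤ) : ContMDiffOn 𝓘(ℝ, C2) 𝓘(ℝ) ∞ (D.u l) univ ∧ (∀ x ∈ univ, 0 < D.u l x) ∧
    (∀ x ∈ univ, D.N l x = D.u l x * (D.Nc l x * ∏ j ∈ Iv D.s l, D.N j x)) ∧
    ∃ K : ℝ, 0 < K ∧ ∀ x ∈ univ, D.f x ≤ -K → K⁻¹ ≤ D.u l x ∧ D.u l x ≤ K :=
  (D.div l).choose_spec

/-- `N l = Q l ∏ N j` -/
def Q (l : ℤ) (x : M) : ℝ := D.u l x * D.Nc l x

theorem N_eq (l : ℤ) (x : M) : D.N l x = D.Q l x * ∏ j ∈ Iv D.s l, D.N j x := by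
  rw [(D.u_spec l).2.2.1 x (mem_univ x), Q, mul_assoc]

theorem Q_eqv (l : ℤ) (V : Set M) : Eqv D.f V (D.Q l) (D.Nc l) :=
  Eqv.mono ⟨D.u l, (D.u_spec l).1, (D.u_spec l).2.1, fun _ _ => rfl, (D.u_spec l).2.2.2⟩
    (subset_univ V)

/-- multiplicities -/
def m : ℤ → ℤ → ℕ := mu D.s

theorem hm : Mult D.s D.m := mu_mult D.s

theorem duhamel (i l : ℤ) (hl : i < l) (x : M) :
    D.N l x = ∏ p ∈ Finset.Ioc i l,
      (D.Q p x * ∏ j ∈ (Iv D.s p).filter (fun j => j ≤ i), D.N j x) ^ D.m l p :=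
  duhamel_prod D.hm (fun l => D.N l x) (fun l => D.Q l x) i (fun l _ => D.N_eq l x) l hl

theorem N_nonneg (l : ℤ) (x : M) : 0 ≤ D.N l x := (D.N_norm l).nonneg x

theorem N_pos {l : ℤ} {x : M} (h : ∀ j ≤ l, x ∉ D.C j) : 0 < D.N l x :=
  lt_of_le_of_ne (D.N_nonneg l x) fun h0 => by
    obtain ⟨j, hj, hx⟩ := (D.zero l x).1 h0.symm
    exact h j hj hx

theorem Nc_pos {l : ℤ} {x : M} (h : x ∉ D.C l) : 0 < D.Nc l x :=
  lt_of_le_of_ne ((D.Nc_norm l).nonneg x) fun h0 => h ((D.Nc_zero l x).1 h0.symm)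

theorem Nc_eqv {l : ℤ} {V : Set M} (h : ∀ x ∈ V, x ∉ D.C l) : Eqv D.f V (D.Nc l) (fun _ => 1) := by
  obtain ⟨K, hK, hb⟩ := D.Nc_in l
  exact Eqv.of_pos (D.Nc_norm l).smooth.contMDiffOn (fun x hx => D.Nc_pos (h x hx))
    ⟨K, hK, fun x _ hf => hb x hf⟩

theorem Q_eqv_one {l : ℤ} {V : Set M} (h : ∀ x ∈ V, x ∉ D.C l) : Eqv D.f V (D.Q l) (fun _ => 1) :=
  (D.Q_eqv l V).trans (D.Nc_eqv h)

theorem N_eqv {l : ℤ} {V : Set M} {a : ℝ} (ha : ∀ x ∈ V, a < D.f x)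
    (h : ∀ x ∈ V, ∀ j ≤ l, x ∉ D.C j) : Eqv D.f V (D.N l) (fun _ => 1) :=
  Eqv.of_pos (D.N_norm l).smooth.contMDiffOn (fun x hx => D.N_pos (h x hx))
    (exists_bound_of_below ha _)

theorem C_closed [T2Space M] (l : ℤ) : IsClosed (D.C l) := (D.C_cpt l).isClosed

/-! ### the crossing of `C (i + 1)` and `Z = ⋃_{j ≤ i} C j` -/

section crossing

variable (i : ℤ)

/-- the index of the curve in `Z` that `C (i + 1)` meets -/
def i0 : ℤ := i + 1 - D.s (i + 1)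

theorem i0_le : D.i0 i ≤ i := by
  have := D.word.one_le (i + 1)
  unfold i0; omega

theorem Iv_succ : Iv D.s (i + 1) = Finset.Icc (D.i0 i) i := by
  rw [Iv, i0]; congr 1; ring

/-- the crossing point -/
def p0 : M := (D.node (i + 1)).choose

theorem p0_spec : D.C (i + 1) ∩ D.C (D.i0 i) = {D.p0 i} := (D.node (i + 1)).choose_spec

theorem p0_mem : D.p0 i ∈ D.C (i + 1) ∧ D.p0 i ∈ D.C (D.i0 i) := by
  have : D.p0 i ∈ D.C (i + 1) ∩ D.C (D.i0 i) := by rw [D.p0_spec]; rfl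
  exact this

/-- `Z = ⋃_{j ≤ i} C j` -/
def Z : Set M := {x | D.N i x = 0}

theorem mem_Z {x : M} : x ∈ D.Z i ↔ ∃ j ≤ i, x ∈ D.C j := D.zero i x

theorem Z_closed : IsClosed (D.Z i) := (D.N_norm i).isClosed_zero

theorem cross {x : M} (hx : x ∈ D.Z i) (hC : x ∈ D.C (i + 1)) : x = D.p0 i := by
  obtain ⟨j, hj, hxj⟩ := (D.mem_Z i).1 hx
  have h1 : j = D.i0 i := by
    by_contra hne
    exact Set.disjoint_left.1 (D.disj (i + 1) j (by omega) hne) hC hxj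
  subst h1
  have : x ∈ D.C (i + 1) ∩ D.C (D.i0 i) := ⟨hC, hxj⟩
  rw [D.p0_spec] at this
  exact this

theorem p0_notMem {k : ℤ} (hk : k ≤ i) (hne : k ≠ D.i0 i) : D.p0 i ∉ D.C k := fun h =>
  Set.disjoint_left.1 (D.disj (i + 1) k (by omega) hne) (D.p0_mem i).1 h

/-- a neighbourhood of the crossing point that meets only `C (i + 1)` and `C i0` among the
`C k`, `k ≤ i + 1` -/
def V0 : Set M := {x | D.f (D.p0 i) - 1 < D.f x} ∩ {x | D.N (D.i0 i - 1) x ≠ 0} ∩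
  ⋂ k ∈ Finset.Ioc (D.i0 i) i, (D.C k)ᶜ

theorem isOpen_V0 [T2Space M] : IsOpen (D.V0 i) := by
  refine ((isOpen_lt continuous_const D.f_cont).inter ?_).inter ?_
  · exact isOpen_ne_fun (D.N_norm _).continuous continuous_const
  · exact isOpen_biInter_finset fun k _ => (D.C_closed k).isOpen_compl

theorem p0_mem_V0 : D.p0 i ∈ D.V0 i := by
  have h0 := D.i0_le i
  refine ⟨⟨by simp, ?_⟩, ?_⟩
  · refine (D.N_pos fun j hj => D.p0_notMem i (by omega) (by omega)).ne'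
  · simp only [mem_iInter, mem_compl_iff, Finset.mem_Ioc]
    intro k hk
    exact D.p0_notMem i hk.2 (by omega)

theorem V0_below {x : M} (hx : x ∈ D.V0 i) : D.f (D.p0 i) - 1 < D.f x := hx.1.1

theorem V0_notMem {x : M} (hx : x ∈ D.V0 i) {k : ℤ} (hk : k ≤ i) (hne : k ≠ D.i0 i) :
    x ∉ D.C k := by
  intro hxk
  rcases lt_or_gt_of_ne hne with h | h
  · exact hx.1.2 ((D.zero _ x).2 ⟨k, by omega, hxk⟩)
  · have h2 := hx.2
    simp only [mem_iInter, mem_compl_iff, Finset.mem_Ioc] at h2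
    exact h2 k ⟨h, hk⟩ hxk

theorem eqv_lt {l : ℤ} (hl : l < D.i0 i) : Eqv D.f (D.V0 i) (D.N l) (fun _ => 1) :=
  D.N_eqv (fun x hx => D.V0_below i hx) fun x hx j hj =>
    D.V0_notMem i hx (by have := D.i0_le i; omega) (by omega)

theorem eqv_le {l : ℤ} (h1 : D.i0 i ≤ l) (h2 : l ≤ i) :
    Eqv D.f (D.V0 i) (D.N l) (fun x => D.Nc (D.i0 i) x ^ D.m l (D.i0 i)) := by
  have e1 : Eqv D.f (D.V0 i) (D.N l) (fun x => ∏ p ∈ Finset.Ioc (D.i0 i - 1) l,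
      (D.Q p x * ∏ j ∈ (Iv D.s p).filter (fun j => j ≤ D.i0 i - 1), D.N j x) ^ D.m l p) :=
    Eqv.of_eq fun x _ => D.duhamel (D.i0 i - 1) l (by omega) x
  have e2 : Eqv D.f (D.V0 i) (fun x => ∏ p ∈ Finset.Ioc (D.i0 i - 1) l,
      (D.Q p x * ∏ j ∈ (Iv D.s p).filter (fun j => j ≤ D.i0 i - 1), D.N j x) ^ D.m l p)
      (fun x => ∏ p ∈ Finset.Ioc (D.i0 i - 1) l,
        (if p = D.i0 i then D.Nc (D.i0 i) x ^ D.m l (D.i0 i) else 1)) := by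
    refine Eqv.prod _ fun p hp => ?_
    rw [Finset.mem_Ioc] at hp
    have e3 : Eqv D.f (D.V0 i) (fun x => ∏ j ∈ (Iv D.s p).filter (fun j => j ≤ D.i0 i - 1),
        D.N j x) (fun _ => 1) := by
      refine Eqv.prod_one _ fun j hj => D.eqv_lt i ?_
      rw [Finset.mem_filter] at hj
      omega
    by_cases hpi : p = D.i0 i
    · subst hpi
      simp only [if_true]
      exact ((D.Q_eqv _ _).mul_one e3).pow _
    · simp only [if_neg hpi]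
      refine Eqv.pow_one ?_ _
      exact (D.Q_eqv_one fun x hx => D.V0_notMem i hx (by omega) hpi).mul_one e3
  refine (e1.trans e2).trans (Eqv.of_eq fun x _ => ?_)
  rw [Finset.prod_ite_eq', if_pos (Finset.mem_Ioc.2 ⟨by omega, h1⟩)]

theorem eqv_succ : Eqv D.f (D.V0 i) (D.N (i + 1))
    (fun x => D.Nc (i + 1) x * D.Nc (D.i0 i) x ^ D.s (i + 1)) := by
  have e1 : Eqv D.f (D.V0 i) (D.N (i + 1)) (fun x => D.Q (i + 1) x *
      ∏ j ∈ Iv D.s (i + 1), D.N j x) := Eqv.of_eq fun x _ => D.N_eq (i + 1) x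
  refine e1.trans ((D.Q_eqv _ _).mul ?_)
  rw [D.Iv_succ]
  refine (Eqv.prod _ (G := fun j x => D.Nc (D.i0 i) x ^ D.m j (D.i0 i)) fun j hj => ?_).trans
    (Eqv.of_eq fun x _ => ?_)
  · rw [Finset.mem_Icc] at hj
    exact D.eqv_le i hj.1 hj.2
  · rw [Finset.prod_pow_eq_pow_sum]
    congr 1
    exact D.hm.sum_eq_s D.word i

end crossing

end Geo

end Vale.Agent.P267.H821
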