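import Vale.Agent.P267.H821.Fam2
import Vale.Agent.P267.H781.Comb

/-!
# P267 / H821 (LINE X, step (A3)): divisor calculus with norm functions

`Eqv f V F G`: `F = u G` on `V`, `u` smooth and positive on `V`, and `u`, `1/u` bounded at the inner
end `f → -∞`. Duhamel formula in product form.
-/

set_option linter.unusedVariables false
set_option linter.unusedSectionVars false

open scoped Manifold ContDiff ComplexConjugate Matrix ComplexOrder Topology
open MeasureTheory Set Filter Function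

noncomputable section

namespace Vale.Agent.P267.H821

open FL H757 H332

/-! ### Duhamel formula -/

section duhamel

open H781

/-- Duhamel formula in product form: if `N_l = Q_l ∏_{j ∈ I_l} N_j` then
`N_l = ∏_{i < p ≤ l} (Q_p ∏_{j ∈ I_p, j ≤ i} N_j)^{m l p}` for `l > i`. -/
theorem duhamel_prod {s : ℤ → ℕ} {m : ℤ → ℤ → ℕ} (hm : Mult s m) {G : Type*} [CommMonoid G]
    (N Q : ℤ → G) (i : ℤ) (hN : ∀ l, i < l → N l = Q l * ∏ j ∈ Iv s l, N j) (l : ℤ) (hl : i < l) :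
    N l = ∏ p ∈ Finset.Ioc i l, (Q p * ∏ j ∈ (Iv s p).filter (fun j => j ≤ i), N j) ^ m l p := by
  set E : ℤ → G := fun p => Q p * ∏ j ∈ (Iv s p).filter (fun j => j ≤ i), N j with hE
  revert hl
  refine Mult.outward_induction (P := fun l => i < l → N l = ∏ p ∈ Finset.Ioc i l, E p ^ m l p) i
    (fun l hl h => by omega) (fun l hil ih hlt => ?_) l
  have h1 : ∏ p ∈ Finset.Ioc i l, E p ^ m l p
      = E l * ∏ j ∈ Iv s l, ∏ p ∈ Finset.Ioc i l, E p ^ m j p := by
    rw [Finset.prod_comm]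
    have h2 : ∀ p ∈ Finset.Ioc i l, E p ^ m l p
        = (if l = p then E p else 1) * ∏ j ∈ Iv s l, E p ^ m j p := by
      intro p _
      rw [hm.step l p, pow_add, Finset.prod_pow_eq_pow_sum]
      congr 1
      split_ifs <;> simp
    rw [Finset.prod_congr rfl h2, Finset.prod_mul_distrib, Finset.prod_ite_eq,
      if_pos (Finset.mem_Ioc.2 ⟨hlt, le_rfl⟩)]
  rw [h1, ← Finset.prod_filter_mul_prod_filter_not (Iv s l) (fun j => j ≤ i)]
  have h3 : ∏ j ∈ (Iv s l).filter (fun j => j ≤ i), ∏ p ∈ Finset.Ioc i l, E p ^ m j p = 1 := by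
    refine Finset.prod_eq_one fun j hj => Finset.prod_eq_one fun p hp => ?_
    rw [Finset.mem_filter] at hj
    rw [Finset.mem_Ioc] at hp
    rw [hm.zero j p (by omega), pow_zero]
  have h4 : ∏ j ∈ (Iv s l).filter (fun j => ¬ j ≤ i), ∏ p ∈ Finset.Ioc i l, E p ^ m j p
      = ∏ j ∈ (Iv s l).filter (fun j => ¬ j ≤ i), N j := by
    refine Finset.prod_congr rfl fun j hj => ?_
    rw [Finset.mem_filter, mem_Iv] at hj
    rw [ih j (by omega) (by omega)]
    symm
    refine Finset.prod_subset (fun p hp => ?_) (fun p hp hp' => ?_)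
    · rw [Finset.mem_Ioc] at hp ⊢; omega
    · rw [Finset.mem_Ioc] at hp hp'
      rw [hm.zero j p (by omega), pow_zero]
  rw [h3, h4, one_mul, hN l hlt, hE]
  simp only
  rw [mul_assoc, Finset.prod_filter_mul_prod_filter_not]

end duhamel

/-! ### equivalence up to positive smooth factors -/

variable {X : Type*} [TopologicalSpace X] [ChartedSpace C2 X] [IsManifold 𝓘(ℂ, C2) ω X]

/-- `F = u G` on `V`, `u` smooth and positive on `V`, `u` and `1/u` bounded for `f → -∞` -/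
def Eqv (f : X → ℝ) (V : Set X) (F G : X → ℝ) : Prop :=
  ∃ u : X → ℝ, ContMDiffOn 𝓘(ℝ, C2) 𝓘(ℝ) ∞ u V ∧ (∀ x ∈ V, 0 < u x) ∧
    (∀ x ∈ V, F x = u x * G x) ∧
    ∃ K : ℝ, 0 < K ∧ ∀ x ∈ V, f x ≤ -K → K⁻¹ ≤ u x ∧ u x ≤ K

variable {f : X → ℝ} {V : Set X} {F G H F' G' : X → ℝ}

theorem Eqv.refl (f : X → ℝ) (V : Set X) (F : X → ℝ) : Eqv f V F F :=
  ⟨fun _ => 1, contMDiffOn_const, fun _ _ => one_pos, fun _ _ => (one_mul _).symm, 1, one_pos,
    fun _ _ _ => by simp⟩

theorem Eqv.of_eq (h : ∀ x ∈ V, F x = G x) : Eqv f V F G :=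
  ⟨fun _ => 1, contMDiffOn_const, fun _ _ => one_pos, fun x hx => by rw [h x hx, one_mul], 1,
    one_pos, fun _ _ _ => by simp⟩

theorem Eqv.mono (h : Eqv f V F G) {V' : Set X} (hV : V' ⊆ V) : Eqv f V' F G := by
  obtain ⟨u, h1, h2, h3, K, hK, h4⟩ := h
  exact ⟨u, h1.mono hV, fun x hx => h2 x (hV hx), fun x hx => h3 x (hV hx), K, hK,
    fun x hx => h4 x (hV hx)⟩

theorem Eqv.symm (h : Eqv f V F G) : Eqv f V G F := by
  obtain ⟨u, h1, h2, h3, K, hK, h4⟩ := h
  refine ⟨fun x => (u x)⁻¹, h1.inv₀ fun x hx => (h2 x hx).ne', fun x hx => inv_pos.2 (h2 x hx),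
    fun x hx => ?_, K, hK, fun x hx hf => ?_⟩
  · rw [h3 x hx, ← mul_assoc, inv_mul_cancel₀ (h2 x hx).ne', one_mul]
  · obtain ⟨h5, h6⟩ := h4 x hx hf
    have hu := h2 x hx
    exact ⟨inv_anti₀ hu h6, inv_le_of_inv_le₀ hK h5⟩

theorem Eqv.trans (h : Eqv f V F G) (h' : Eqv f V G H) : Eqv f V F H := by
  obtain ⟨u, h1, h2, h3, K, hK, h4⟩ := h
  obtain ⟨v, k1, k2, k3, K', hK', k4⟩ := h'
  have hm : 0 < max K K' := lt_max_of_lt_left hK
  refine ⟨fun x => u x * v x, h1.mul k1, fun x hx => mul_pos (h2 x hx) (k2 x hx),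
    fun x hx => ?_, max (max K K') (max K K' * max K K'), lt_max_of_lt_left hm,
    fun x hx hf => ?_⟩
  · rw [h3 x hx, k3 x hx]; ring
  · have hf' : f x ≤ -max K K' := hf.trans (neg_le_neg (le_max_left _ _))
    obtain ⟨h5, h6⟩ := h4 x hx (hf'.trans (neg_le_neg (le_max_left _ _)))
    obtain ⟨k5, k6⟩ := k4 x hx (hf'.trans (neg_le_neg (le_max_right _ _)))
    have p1 : K⁻¹ ≤ u x := h5
    have hu := h2 x hx
    have hv := k2 x hx
    have e1 : (max K K')⁻¹ ≤ K⁻¹ := inv_anti₀ hK (le_max_left _ _)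
    have e2 : (max K K')⁻¹ ≤ K'⁻¹ := inv_anti₀ hK' (le_max_right _ _)
    have hmi : 0 < (max K K')⁻¹ := inv_pos.2 hm
    constructor
    · calc (max (max K K') (max K K' * max K K'))⁻¹ ≤ (max K K' * max K K')⁻¹ :=
            inv_anti₀ (mul_pos hm hm) (le_max_right _ _)
        _ = (max K K')⁻¹ * (max K K')⁻¹ := by rw [mul_inv]
        _ ≤ u x * v x := mul_le_mul (e1.trans h5) (e2.trans k5) hmi.le hu.le
    · calc u x * v x ≤ max K K' * max K K' :=
            mul_le_mul (h6.trans (le_max_left _ _)) (k6.trans (le_max_right _ _)) hv.le hm.le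
        _ ≤ _ := le_max_right _ _

theorem Eqv.mul (h : Eqv f V F G) (h' : Eqv f V F' G') :
    Eqv f V (fun x => F x * F' x) (fun x => G x * G' x) := by
  obtain ⟨u, h1, h2, h3, K, hK, h4⟩ := h
  obtain ⟨v, k1, k2, k3, K', hK', k4⟩ := h'
  have key : Eqv f V (fun x => u x * v x) (fun _ => 1) := by
    have e1 : Eqv f V u (fun _ => 1) := ⟨u, h1, h2, fun x _ => (mul_one _).symm, K, hK, h4⟩
    have e2 : Eqv f V (fun x => u x * v x) u :=
      ⟨v, k1, k2, fun x _ => mul_comm _ _, K', hK', k4⟩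
    exact e2.trans e1
  obtain ⟨w, w1, w2, w3, K'', hK'', w4⟩ := key
  refine ⟨w, w1, w2, fun x hx => ?_, K'', hK'', w4⟩
  have := w3 x hx
  simp only at this ⊢
  rw [h3 x hx, k3 x hx]
  have e : u x * G x * (v x * G' x) = u x * v x * (G x * G' x) := by ring
  rw [e, this, _root_.mul_one]

theorem Eqv.pow (h : Eqv f V F G) (k : ℕ) : Eqv f V (fun x => F x ^ k) (fun x => G x ^ k) := by
  induction k with
  | zero => simpa using Eqv.refl f V (fun _ => 1)
  | succ k ih =>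
    simp only [pow_succ]
    exact ih.mul h

theorem Eqv.prod {ι : Type*} (I : Finset ι) {F G : ι → X → ℝ} (h : ∀ i ∈ I, Eqv f V (F i) (G i)) :
    Eqv f V (fun x => ∏ i ∈ I, F i x) (fun x => ∏ i ∈ I, G i x) := by
  classical
  induction I using Finset.induction_on with
  | empty => simpa using Eqv.refl f V (fun _ => 1)
  | insert a I ha ih =>
    simp only [Finset.prod_insert ha]
    exact (h a (by simp)).mul (ih fun i hi => h i (by simp [hi]))

theorem Eqv.prod_one {ι : Type*} (I : Finset ι) {F : ι → X → ℝ}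
    (h : ∀ i ∈ I, Eqv f V (F i) (fun _ => 1)) :
    Eqv f V (fun x => ∏ i ∈ I, F i x) (fun _ => 1) := by
  have := Eqv.prod I h
  simpa using this

theorem Eqv.pow_one (h : Eqv f V F (fun _ => 1)) (k : ℕ) :
    Eqv f V (fun x => F x ^ k) (fun _ => 1) := by
  have := h.pow k
  simpa using this

theorem Eqv.mul_one (h : Eqv f V F G) (h' : Eqv f V F' (fun _ => 1)) :
    Eqv f V (fun x => F x * F' x) G := by
  have := h.mul h'
  simpa using this

theorem Eqv.one_mul (h : Eqv f V F (fun _ => 1)) (h' : Eqv f V F' G') :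
    Eqv f V (fun x => F x * F' x) G' := by
  have := h.mul h'
  simpa using this

theorem Eqv.congr (h : Eqv f V F G) (hF : ∀ x ∈ V, F' x = F x) (hG : ∀ x ∈ V, G' x = G x) :
    Eqv f V F' G' := by
  obtain ⟨u, h1, h2, h3, K, hK, h4⟩ := h
  exact ⟨u, h1, h2, fun x hx => by rw [hF x hx, hG x hx, h3 x hx], K, hK, h4⟩

theorem Eqv.pos (h : Eqv f V F G) {x : X} (hx : x ∈ V) (hG : 0 < G x) : 0 < F x := by
  obtain ⟨u, -, h2, h3, -⟩ := h
  rw [h3 x hx]
  exact mul_pos (h2 x hx) hG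

/-- a positive smooth function, bounded above and below at the inner end -/
theorem Eqv.of_pos (hF : ContMDiffOn 𝓘(ℝ, C2) 𝓘(ℝ) ∞ F V) (hpos : ∀ x ∈ V, 0 < F x)
    (hb : ∃ K : ℝ, 0 < K ∧ ∀ x ∈ V, f x ≤ -K → K⁻¹ ≤ F x ∧ F x ≤ K) : Eqv f V F (fun _ => 1) :=
  ⟨F, hF, hpos, fun x _ => (_root_.mul_one _).symm, hb⟩

/-- no condition at the inner end for a set which stays away from it -/
theorem exists_bound_of_below {a : ℝ} (ha : ∀ x ∈ V, a < f x) (u : X → ℝ) :
    ∃ K : ℝ, 0 < K ∧ ∀ x ∈ V, f x ≤ -K → K⁻¹ ≤ u x ∧ u x ≤ K :=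
  ⟨|a| + 1, by positivity, fun x hx hf => by
    exfalso
    have h1 := ha x hx
    have h2 := neg_abs_le a
    linarith⟩

end Vale.Agent.P267.H821
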