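import Vale.Agent.P267.H821.BW
import Vale.Agent.P267.H399.Calc3
import Vale.Agent.P267.H439.DbarPoin

/-!
# P267 / H821 (D-LBNF): existence of local holomorphic frames of `(L, a)`
-/

set_option linter.unusedVariables false
set_option linter.unusedSectionVars false

open scoped Manifold ContDiff ComplexConjugate Matrix ComplexOrder Topology
open MeasureTheory Set Filter

noncomputable section

namespace Vale.Agent.P267.H821

open FL H757 H509

variable {X : Type*} [TopologicalSpace X] [ChartedSpace C2 X] [IsManifold 𝓘(ℂ, C2) ω X]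
variable {ι : Type} [Fintype ι] [DecidableEq ι]

/-- a `(0,1)`-form is determined by its components in any chart -/
theorem eq_of_loc1 {V : Type*} [NormedAddCommGroup V] [NormedSpace ℂ V] {κ : ℤ} {c : Ch X}
    (hc : c ∈ atlas C2 X) {x : X} (hx : x ∈ c.source) {a b : X → Fin 2 → V}
    (h : ∀ i, loc1 κ c a (c x) i = loc1 κ c b (c x) i) : a x = b x := by
  have hd : (jac c x).det ≠ 0 := jac_det_ne_zero hc hx
  have hcd : conj (jac c x).det ≠ 0 := by simpa using hd
  have e0 := h 0
  have e1 := h 1
  rw [loc1_source hx, loc1_source hx] at e0 e1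
  have f0 := smul_right_injective V (zpow_ne_zero κ hd) e0
  have f1 := smul_right_injective V (zpow_ne_zero κ hd) e1
  simp only [Fin.sum_univ_two] at f0 f1
  rw [Matrix.det_fin_two, map_sub, map_mul, map_mul] at hcd
  set A := conj (jac c x 0 0)
  set B := conj (jac c x 1 0)
  set C := conj (jac c x 0 1)
  set D := conj (jac c x 1 1)
  set v := a x 0 - b x 0 with hv
  set w := a x 1 - b x 1 with hw
  have g0 : A • v + B • w = 0 := by
    have : A • v + B • w = (A • a x 0 + B • a x 1) - (A • b x 0 + B • b x 1) := by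
      rw [hv, hw]; module
    rw [this, f0, sub_self]
  have g1 : C • v + D • w = 0 := by
    have : C • v + D • w = (C • a x 0 + D • a x 1) - (C • b x 0 + D • b x 1) := by
      rw [hv, hw]; module
    rw [this, f1, sub_self]
  have k0 : (A * D - C * B) • v = 0 := by
    have : (A * D - C * B) • v = D • (A • v + B • w) - B • (C • v + D • w) := by module
    rw [this, g0, g1]; simp
  have k1 : (A * D - C * B) • w = 0 := by
    have : (A * D - C * B) • w = A • (C • v + D • w) - C • (A • v + B • w) := by module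
    rw [this, g0, g1]; simp
  have v0 := (smul_eq_zero.1 k0).resolve_left hcd
  have w0 := (smul_eq_zero.1 k1).resolve_left hcd
  funext i
  fin_cases i
  · exact sub_eq_zero.1 v0
  · exact sub_eq_zero.1 w0

/-- `P ∂̄e = (the e) e` -/
theorem act_dbar0 {L : LB X ι} {U : Set X} {s : X → EuclideanSpace ℂ ι} (h : Fr L U s) {x : X}
    (hx : x ∈ U)
    (hs : DifferentiableAt ℝ (fun z => s ((chartAt C2 x).symm z)) (chartAt C2 x x)) (j : Fin 2) :
    LB.act (L.P x) (dbar0 0 s x j) = the s x j • s x := by
  ext k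
  simp only [act_apply, PiLp.smul_apply, smul_eq_mul, dbar0_component hs, the, Finset.sum_mul]
  exact Finset.sum_congr rfl fun l _ => by rw [h.P_eq hx]; ring

/-- **local holomorphic frames exist** -/
theorem exists_holFrame {L : LB X ι} {a : X → Fin 2 → ℂ} (ha : L.IsHol a) (p : X) :
    ∃ (U : Set X) (e : X → EuclideanSpace ℂ ι), p ∈ U ∧ HolFrame L a U e := by
  obtain ⟨k, hk⟩ : ∃ k, L.P p k k ≠ 0 := by
    by_contra hcon
    push Not at hcon
    have := L.tr p
    rw [Matrix.trace] at this
    simp only [Matrix.diag, hcon, Finset.sum_const_zero] at this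
    exact zero_ne_one this
  set e0 : X → EuclideanSpace ℂ ι := fun x => WithLp.toLp 2 fun i => L.P x i k with he0
  set U0 : Set X := {x | L.P x k k ≠ 0} with hU0
  have hU0o : IsOpen U0 := isOpen_ne.preimage (L.smooth k k).continuous
  have hfr : Fr L U0 e0 := by
    refine ⟨hU0o, fun x hx j => ?_, fun x hx => ?_, fun x hx h0 => ?_⟩
    · exact smooth_comp_symm (L.smooth j k) (chart_mem_atlas C2 x) (mem_chart_target C2 x)
    · ext i
      change ∑ j, L.P x i j * L.P x j k = L.P x i k
      have := congrFun (congrFun (L.idem x) i) k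
      rwa [Matrix.mul_apply] at this
    · exact hx (congrArg (fun v : EuclideanSpace ℂ ι => v k) h0)
  have he0s : Reg0 ∞ 0 e0 := by
    intro c hc
    have h1 : loc0 0 c e0 = fun z => WithLp.toLp 2 fun i => L.P (c.symm z) i k := by
      rw [LB.loc0_zero]; rfl
    rw [h1]
    intro z hz
    refine ContDiffAt.contDiffWithinAt ?_
    have h2 : ContDiffAt ℝ ∞ (fun z => fun i => L.P (c.symm z) i k) z :=
      contDiffAt_pi.2 fun i => smooth_comp_symm (L.smooth i k) hc hz
    exact (PiLp.contDiff_toLp (𝕜 := ℝ) (p := 2) (E := fun _ : ι => ℂ)).contDiffAt.comp z h2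
  -- the `(0,1)`-form `b`
  set b : X → Fin 2 → ℂ := fun x i => the e0 x i + a x i with hb
  have hloc : ∀ (c : Ch X) (z : C2) (i : Fin 2), loc1 0 c b z i =
      loc1 0 c (the e0) z i + loc1 0 c a z i := by
    intro c z i
    simp only [loc1, hb, Fin.sum_univ_two, smul_eq_mul]
    ring
  have hbs : ∀ c ∈ atlas C2 X, ∀ z ∈ c.target, c.symm z ∈ U0 →
      ContDiffAt ℝ ∞ (loc1 0 c b) z := by
    intro c hc z hz hzU
    have h1 := hfr.the_smooth hc (c.map_target hz) hzU
    rw [c.right_inv hz] at h1
    have h2 := ha.smooth.contDiffAt hc hz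
    have h3 : loc1 0 c b = fun z => loc1 0 c (the e0) z + loc1 0 c a z := by
      funext z i
      rw [hloc]; rfl
    rw [h3]
    exact h1.add h2
  have hbc : ∀ x ∈ U0, dbar1 0 b x = 0 := by
    intro x hx
    have hx' := mem_chart_source C2 x
    have hc := chart_mem_atlas C2 x
    have h1 := (hfr.the_smooth hc hx' hx).differentiableAt (by simp)
    have h2 := (ha.smooth.contDiffAt hc (mem_chart_target C2 x)).differentiableAt (by simp)
    have h3 : ∀ i j : Fin 2, dzb i (fun z => loc1 0 (chartAt C2 x) b z j) (chartAt C2 x x) =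
        dzb i (fun z => loc1 0 (chartAt C2 x) (the e0) z j) (chartAt C2 x x) +
          dzb i (fun z => loc1 0 (chartAt C2 x) a z j) (chartAt C2 x x) := by
      intro i j
      have : (fun z => loc1 0 (chartAt C2 x) b z j) = fun z =>
          loc1 0 (chartAt C2 x) (the e0) z j + loc1 0 (chartAt C2 x) a z j :=
        funext fun z => hloc _ z j
      rw [this, dzb_add (differentiableAt_pi.1 h1 j) (differentiableAt_pi.1 h2 j)]
    have h4 := ha.integrable x
    rw [hfr.F02_eq hx] at h4
    rw [dbar1, h3, h3]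
    rw [dbar1, dbar1] at h4
    linear_combination h4
  -- solve `∂̄u = b` in the chart at `p`
  set c := chartAt C2 p with hcd
  have hc : c ∈ atlas C2 X := chart_mem_atlas C2 p
  have hpc : p ∈ c.source := mem_chart_source C2 p
  have hO : IsOpen (c.target ∩ c.symm ⁻¹' U0) := c.symm.isOpen_inter_preimage hU0o
  have hpO : c p ∈ c.target ∩ c.symm ⁻¹' U0 :=
    ⟨c.map_source hpc, by rw [mem_preimage, c.left_inv hpc]; exact hk⟩
  obtain ⟨V, hVo, hpV, hVU, u, hu, hub⟩ := H439.dbar_poincare hO hpO
    (f := fun i z => loc1 0 c b z i)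
    (fun i z hz => ((contDiffAt_pi.1 (hbs c hc z hz.1 hz.2)) i).contDiffWithinAt) (by
      intro z hz
      have h1 := loc2_dbar1 hc hz.1 ((hbs c hc z hz.1 hz.2).differentiableAt (by simp))
      rw [loc2, hbc _ hz.2] at h1
      simp only [smul_zero] at h1
      exact sub_eq_zero.1 h1.symm)
  set g : X → ℂ := fun x => Complex.exp (-u (c x)) with hg
  set U : Set X := c.source ∩ c ⁻¹' V with hU
  have hUo : IsOpen U := c.isOpen_inter_preimage hVo
  have hUU0 : ∀ x ∈ U, x ∈ U0 := by
    intro x hx
    have := (hVU hx.2).2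
    rwa [mem_preimage, c.left_inv hx.1] at this
  -- `u ∘ c`
  set uc : X → ℂ := fun x => -u (c x) with huc
  have hucs : ∀ x ∈ U, At0 ∞ 0 uc x := by
    intro x hx
    refine at0_of_chart hc hx.1 ?_
    have h1 : loc0 0 c uc =ᶠ[𝓝 (c x)] fun z => -u z := by
      filter_upwards [c.open_target.mem_nhds (c.map_source hx.1)] with z hz
      rw [LB.loc0_zero]
      simp only [Function.comp_apply, huc, c.right_inv hz]
    exact (hu.contDiffAt.neg).congr_of_eventuallyEq h1
  have hucd : ∀ x ∈ U, dbar0 0 uc x = fun i => -b x i := by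
    intro x hx
    refine eq_of_loc1 (κ := 0) (c := c) hc hx.1 (a := dbar0 0 uc) (b := fun y i => -b y i) fun i => ?_
    have h1 : loc0 0 c uc =ᶠ[𝓝 (c x)] fun z => -u z := by
      filter_upwards [c.open_target.mem_nhds (c.map_source hx.1)] with z hz
      rw [LB.loc0_zero]
      simp only [Function.comp_apply, huc, c.right_inv hz]
    have h2 : DifferentiableAt ℝ (loc0 0 c uc) (c x) :=
      ((hu.contDiffAt.neg).congr_of_eventuallyEq h1).differentiableAt (by simp)
    rw [loc1_dbar0 hc (c.map_source hx.1) h2, dzb_congr h1, dzb_neg, hub _ hx.2]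
    simp only [loc1, smul_neg, Finset.sum_neg_distrib]
  refine ⟨U, fun x => g x • e0 x, ⟨hpc, hpV⟩, hUo, ?_, ?_, ?_, ?_⟩
  · intro c' hc' z hz hzU
    have h1 : At0 ∞ 0 (fun x => g x • e0 x) (c'.symm z) := by
      have h2 : At0 ∞ 0 g (c'.symm z) := (hucs _ hzU).cexp
      have h3 : At0 ∞ 0 e0 (c'.symm z) := by
        have := smooth_comp_symm he0s (chart_mem_atlas C2 (c'.symm z))
          (mem_chart_target C2 (c'.symm z))
        rw [at0_zero_iff]
        exact this
      exact h2.smul h3
    have h4 := h1.chart hc' (c'.map_target hz)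
    rw [c'.right_inv hz, LB.loc0_zero] at h4
    exact h4
  · intro x hx
    rw [act_smul, hfr.sec x (hUU0 x hx)]
  · intro x hx
    exact smul_ne_zero (Complex.exp_ne_zero _) (hfr.ne x (hUU0 x hx))
  · intro x hx
    funext i
    have h3 : At0 ∞ 0 e0 x := by
      rw [at0_zero_iff]
      exact smooth_comp_symm he0s (chart_mem_atlas C2 x) (mem_chart_target C2 x)
    have h2 : At0 ∞ 0 g x := (hucs _ hx).cexp
    have h4 : dbar0 0 (fun x => g x • e0 x) x i = dbar0 0 g x i • e0 x + g x • dbar0 0 e0 x i :=
      FL.dbar0_smul (h2.of_le (by simp)) (h3.of_le (by simp)) i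
    have h5 : dbar0 0 g x i = g x * -b x i := by
      have := dbar0_cexp ((hucs x hx).of_le (m := 1) (by simp)) i
      rw [hucd x hx] at this
      exact this
    have h6 := act_dbar0 hfr (hUU0 x hx) ((smooth_comp_symm he0s (chart_mem_atlas C2 x)
      (mem_chart_target C2 x)).differentiableAt (by simp)) i
    rw [LB.db0, h4, h5, act_add, act_smul, act_smul, h6, hfr.sec x (hUU0 x hx), hb]
    simp only [Pi.zero_apply]
    module

end Vale.Agent.P267.H821
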