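import Vale.Agent.P267.H821.FlatFam

/-!
# P267 / H821 (GX-K): curvature of norm functions on an open set, families on an open set
-/

set_option linter.unusedVariables false
set_option linter.unusedSectionVars false

open scoped Manifold ContDiff ComplexConjugate Matrix ComplexOrder Topology
open MeasureTheory Set Filter Function

noncomputable section

namespace Vale.Agent.P267.H821

open FL H757 H332

variable {X : Type*} [TopologicalSpace X] [ChartedSpace C2 X] [IsManifold 𝓘(ℂ, C2) ω X]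
variable {N N' : X → ℝ} {W : Set X} {x : X}

theorem curvN_congr_on (hN : IsNormFnOn C2 N W) (hx : x ∈ W) (h : N =ᶠ[𝓝 x] N') :
    curvN N x = curvN N' x := by
  obtain ⟨U, g, φ, hU, k⟩ := hN x hx
  obtain ⟨V, hWV, hWo, hxW⟩ := mem_nhds_iff.1 h
  have k1 : LocRep C2 N (U ∩ V) g φ := k.mono (k.isOpen.inter hWo) inter_subset_left
  have k2 : LocRep C2 N' (U ∩ V) g φ := k1.congr fun y hy => (hWV hy.2).symm
  rw [curvN_eq k1 (show x ∈ U ∩ V from ⟨hU, hxW⟩), curvN_eq k2 (show x ∈ U ∩ V from ⟨hU, hxW⟩)]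

theorem isNormFnOn_congr (hN : IsNormFnOn C2 N W) (hW : IsOpen W) (h : ∀ y ∈ W, N' y = N y) :
    IsNormFnOn C2 N' W := by
  intro p hp
  obtain ⟨U, g, φ, hU, k⟩ := hN p hp
  exact ⟨U ∩ W, g, φ, ⟨hU, hp⟩, (k.mono (k.isOpen.inter hW) inter_subset_left).congr
    fun y hy => h y hy.2⟩

theorem curvN_mul_on (h : IsNormFnOn C2 N W) (h' : IsNormFnOn C2 N' W) (hx : x ∈ W) :
    curvN (fun x => N x * N' x) x = curvN N x + curvN N' x := by
  obtain ⟨U, g, φ, hU, k⟩ := h x hx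
  obtain ⟨U', g', φ', hU', k'⟩ := h' x hx
  have hx : (chartAt C2 x).symm (chartAt C2 x x) = x :=
    (chartAt C2 x).left_inv (mem_chart_source C2 x)
  rw [curvN_eq (k.mul k') (show x ∈ U ∩ U' from ⟨hU, hU'⟩), curvN_eq k hU, curvN_eq k' hU']
  have e1 := (lr_cda k (chart_mem_atlas C2 x) (mem_chart_target C2 x) (by rwa [hx])).of_le
    (m := 2) (WithTop.coe_le_coe.2 le_top)
  have e2 := (lr_cda k' (chart_mem_atlas C2 x) (mem_chart_target C2 x) (by rwa [hx])).of_le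
    (m := 2) (WithTop.coe_le_coe.2 le_top)
  rw [← ddz_add e1 e2]
  simp only [Complex.ofReal_add]

theorem curvN_finset_prod_on {Λ : Type*} (I : Finset Λ) {N : Λ → X → ℝ}
    (hN : ∀ l ∈ I, IsNormFnOn C2 (N l) W) (hx : x ∈ W) :
    curvN (fun y => ∏ l ∈ I, N l y) x = ∑ l ∈ I, curvN (N l) x := by
  classical
  induction I using Finset.induction_on with
  | empty => simpa using curvN_const_one x
  | insert a I ha ih =>
    have h1 : IsNormFnOn C2 (N a) W := hN a (by simp)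
    have h2 : ∀ l ∈ I, IsNormFnOn C2 (N l) W := fun l hl => hN l (by simp [hl])
    have h3 : IsNormFnOn C2 (fun y => ∏ l ∈ I, N l y) W := isNormFnOn_prod I h2
    simp only [Finset.prod_insert ha, Finset.sum_insert ha]
    rw [curvN_mul_on h1 h3 hx, ih h2]

theorem curvN_pow_on (h : IsNormFnOn C2 N W) (hx : x ∈ W) (k : ℕ) :
    curvN (fun x => N x ^ k) x = k • curvN N x := by
  have h1 := curvN_finset_prod_on (N := fun _ : Fin k => N) (W := W) Finset.univ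
    (fun l _ => h) hx
  simpa using h1

/-- the square of the absolute value of a holomorphic function is a flat norm function -/
theorem locRep_hol {ζ : X → ℂ} (hW : IsOpen W) (hζ : MDifferentiableOn 𝓘(ℂ, C2) 𝓘(ℂ) ζ W)
    (hnz : ∀ V : Set X, IsOpen V → V ⊆ W → V.Nonempty → ∃ x ∈ V, ζ x ≠ 0) :
    LocRep C2 (fun x => ‖ζ x‖ ^ 2) W ζ (fun _ => 0) :=
  ⟨hW, hζ, hnz, contMDiffOn_const, fun x _ => by simp⟩

theorem curvN_hol {ζ : X → ℂ} (hW : IsOpen W) (hζ : MDifferentiableOn 𝓘(ℂ, C2) 𝓘(ℂ) ζ W)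
    (hnz : ∀ V : Set X, IsOpen V → V ⊆ W → V.Nonempty → ∃ x ∈ V, ζ x ≠ 0) (hx : x ∈ W) :
    curvN (fun x => ‖ζ x‖ ^ 2) x = 0 := by
  rw [H332.curvN_eq (locRep_hol hW hζ hnz) hx]
  simpa using ddz_const 0 (chartAt C2 x x)

/-- **Division by a real power of the absolute value of a holomorphic function does not change the
curvature.** `N = ρ |ζ|^{2 n / m}`. -/
theorem curvN_eq_of_pow {ρ : X → ℝ} {ζ : X → ℂ} (hW : IsOpen W) (hN : IsNormFnOn C2 N W)
    (hρ : IsNormFnOn C2 ρ W) (hζ : MDifferentiableOn 𝓘(ℂ, C2) 𝓘(ℂ) ζ W)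
    (hnz : ∀ V : Set X, IsOpen V → V ⊆ W → V.Nonempty → ∃ x ∈ V, ζ x ≠ 0) {m n : ℕ} (hm : 0 < m)
    (h : ∀ x ∈ W, N x ^ m = ρ x ^ m * (‖ζ x‖ ^ 2) ^ n) (hx : x ∈ W) :
    curvN N x = curvN ρ x := by
  have hZ : IsNormFnOn C2 (fun x => ‖ζ x‖ ^ 2) W := fun p hp => ⟨W, ζ, _, hp, locRep_hol hW hζ hnz⟩
  have h1 := curvN_pow_on hN hx m
  have h2 : curvN (fun x => ρ x ^ m * (‖ζ x‖ ^ 2) ^ n) x = m • curvN ρ x := by
    rw [curvN_mul_on (hρ.pow m) (hZ.pow n) hx, curvN_pow_on hρ hx m, curvN_pow_on hZ hx n,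
      curvN_hol hW hζ hnz hx, smul_zero, add_zero]
  have h3 : (m : ℕ) • curvN N x = m • curvN ρ x := by
    rw [← h1, ← h2]
    exact curvN_congr_on (hN.pow m) hx (by
      filter_upwards [hW.mem_nhds hx] with y hy
      exact h y hy)
  have h4 : (m : ℂ) • curvN N x = (m : ℂ) • curvN ρ x := by
    rw [Nat.cast_smul_eq_nsmul, Nat.cast_smul_eq_nsmul]; exact h3
  exact smul_right_injective _ (Nat.cast_ne_zero.2 hm.ne') h4

/-! ### `FlatK` is local -/

theorem FlatK.of_local {G : X → ℝ} (h : ∀ x ∈ W, ∃ (U : Set X) (G' : X → ℝ), IsOpen U ∧ x ∈ U ∧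
    U ⊆ W ∧ FlatK G' U ∧ ∀ y ∈ U, G y = G' y) : FlatK G W := by
  intro x hx
  obtain ⟨U, G', hU, hxU, hUW, hG, hGG⟩ := h x hx
  obtain ⟨U', θ, hU', hxU', hUU, hθ, hθG⟩ := hG x hxU
  exact ⟨U', θ, hU', hxU', hUU.trans hUW, hθ, fun y hy => by rw [hθG y hy, hGG y (hUU hy)]⟩

theorem FlatK.congr {G G' : X → ℝ} (h : FlatK G W) (hG : ∀ y ∈ W, G' y = G y) : FlatK G' W := by
  intro x hx
  obtain ⟨U', θ, hU', hxU', hUU, hθ, hθG⟩ := h x hx
  exact ⟨U', θ, hU', hxU', hUU, hθ, fun y hy => by rw [hθG y hy, hG y (hUU hy)]⟩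

/-- **GX-K for a family of norm functions on `W`**, locally finite on `W` -/
theorem flatK_family_on {Λ : Type*} {N : Λ → X → ℝ} (hW : IsOpen W)
    (hN : ∀ l, IsNormFnOn C2 (N l) W)
    (hlf : ∀ x ∈ W, ∃ I : Finset Λ, ∀ᶠ y in 𝓝 x, ∀ l ∉ I, N l y = 1)
    {h : X → Matrix (Fin 2) (Fin 2) ℂ} (hh : IsHerm h) {w : X → ℝ}
    (hw : ContMDiffOn 𝓘(ℝ, C2) 𝓘(ℝ) ∞ w W)
    (hcurv : ∀ y ∈ W, (∑ᶠ l, curvN (N l) y) = ricF h y - ddb (fun x => (w x : ℂ)) y) :
    FlatK (fun y => (∏ᶠ l, N l y) * Real.exp (-w y) * (h y).det.re) W := by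
  refine FlatK.of_local fun x hx => ?_
  obtain ⟨I, hI⟩ := hlf x hx
  obtain ⟨V, hVI, hVo, hxV⟩ := mem_nhds_iff.1 hI
  have hU : IsOpen (V ∩ W) := hVo.inter hW
  refine ⟨V ∩ W, fun y => (∏ l ∈ I, N l y) * Real.exp (-w y) * (h y).det.re, hU, ⟨hxV, hx⟩,
    inter_subset_right, ?_, fun y hy => ?_⟩
  · refine flatK_of_curv hU ?_ hh (hw.mono inter_subset_right) fun y hy => ?_
    · exact isNormFnOn_prod I fun l _ => (hN l).mono inter_subset_right
    · rw [curvN_finset_prod_on I (fun l _ => hN l) hy.2, ← hcurv y hy.2]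
      symm
      refine finsum_eq_sum_of_support_subset _ fun l hl => ?_
      by_contra hlI
      refine hl ?_
      change curvN (N l) y = 0
      rw [curvN_congr_on (hN l) hy.2 (N' := fun _ => (1 : ℝ)), curvN_const_one]
      filter_upwards [hVo.mem_nhds hy.1] with z hz
      exact hVI hz l hlI
  · have : (∏ᶠ l, N l y) = ∏ l ∈ I, N l y := by
      refine finprod_eq_prod_of_mulSupport_subset _ fun l hl => ?_
      by_contra hlI
      exact hl (hVI hy.1 l hlI)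
    simp only [this]

end Vale.Agent.P267.H821
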