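import Vale.Agent.P267.H821.Section
import Vale.Agent.P267.H821.Plh

/-!
# P267 / H821 (GX-K): flat norm functions are squares of holomorphic functions, and flat metrics
on `K` twisted by a norm function are `|ω|²`, `ω` local holomorphic two-forms
-/

set_option linter.unusedVariables false
set_option linter.unusedSectionVars false

open scoped Manifold ContDiff ComplexConjugate Matrix ComplexOrder Topology
open MeasureTheory Set Filter

noncomputable section

namespace Vale.Agent.P267.H821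

open FL H757 H332

variable {X : Type*} [TopologicalSpace X] [ChartedSpace C2 X] [IsManifold 𝓘(ℂ, C2) ω X]

/-- `G` is locally `|θ|²`, `θ` a holomorphic two-form (in preferred coordinates). The forms `θ` are
unique up to locally constant factors of modulus one. -/
def FlatK (G : X → ℝ) (W : Set X) : Prop :=
  ∀ x ∈ W, ∃ (U : Set X) (θ : X → ℂ), IsOpen U ∧ x ∈ U ∧ U ⊆ W ∧ HolOn 1 θ U ∧
    ∀ y ∈ U, ‖θ y‖ ^ 2 = G y

/-- a norm function with curvature zero is locally the square of the absolute value of a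
holomorphic function -/
theorem flat_norm {N : X → ℝ} {V : Set X} {g : X → ℂ} {φ : X → ℝ} (h : LocRep C2 N V g φ)
    (h0 : ∀ y ∈ V, curvN N y = 0) {c : Ch X} (hc : c ∈ atlas C2 X) {x : X} (hx : x ∈ V)
    (hxc : x ∈ c.source) :
    ∃ (U : Set X) (G : C2 → ℂ), IsOpen U ∧ x ∈ U ∧ U ⊆ V ∩ c.source ∧
      (∀ y ∈ U, AnalyticAt ℂ G (c y)) ∧ ∀ y ∈ U, N y = ‖G (c y)‖ ^ 2 := by
  have hO : IsOpen (c.target ∩ c.symm ⁻¹' V) := lr_isOpen h c
  have hxO : c x ∈ c.target ∩ c.symm ⁻¹' V :=
    ⟨c.map_source hxc, by rw [mem_preimage, c.left_inv hxc]; exact hx⟩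
  obtain ⟨r, hr, hball⟩ := Metric.isOpen_iff.1 hO (c x) hxO
  obtain ⟨H, hH, hHφ⟩ := plh (convex_ball (c x) r) Metric.isOpen_ball
    ⟨c x, Metric.mem_ball_self hr⟩ (ψ := fun z => φ (c.symm z))
    ((contDiffOn_chart hc h.smooth).mono hball) (by
      intro z hz
      have hz' := hball hz
      rw [← loc11_curvN h hc hz'.1 hz'.2]
      ext i j
      have : curvN N (c.symm z) = 0 := h0 _ hz'.2
      simp [loc11, this])
  have hg : DifferentiableOn ℂ (fun z => g (c.symm z)) (c.target ∩ c.symm ⁻¹' V) :=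
    H332.differentiableOn_chart hc h.hol
  refine ⟨c.source ∩ c ⁻¹' Metric.ball (c x) r, fun z => g (c.symm z) * Complex.exp (-H z),
    c.isOpen_inter_preimage Metric.isOpen_ball, ⟨hxc, Metric.mem_ball_self hr⟩, ?_, ?_, ?_⟩
  · rintro y ⟨hy1, hy2⟩
    have := (hball hy2).2
    rw [mem_preimage, c.left_inv hy1] at this
    exact ⟨this, hy1⟩
  · rintro y ⟨hy1, hy2⟩
    have h1 : DifferentiableOn ℂ (fun z => g (c.symm z) * Complex.exp (-H z))
        (Metric.ball (c x) r) := (hg.mono hball).mul (hH.neg.cexp)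
    exact P268.analyticAt_of_differentiableOn Metric.isOpen_ball h1 hy2
  · rintro y ⟨hy1, hy2⟩
    have h1 := (hball hy2).2
    rw [mem_preimage, c.left_inv hy1] at h1
    have h2 := hHφ (c y) hy2
    simp only [c.left_inv hy1] at h2
    simp only [c.left_inv hy1]
    rw [h.eq y h1, norm_mul, mul_pow, Complex.norm_exp, Complex.neg_re, ← Real.exp_nat_mul]
    congr 2
    rw [h2]
    push_cast
    ring

/-- `∂∂̄ log det h` in another chart -/
theorem ric_chart {h : X → Matrix (Fin 2) (Fin 2) ℂ} (hh : IsHerm h) {c : Ch X}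
    (hc : c ∈ atlas C2 X) {y : X} (hy : y ∈ c.source) :
    ddz (fun z => (Real.log (loc11 c h (c ((chartAt C2 y).symm z))).det.re : ℂ))
      (chartAt C2 y y) = ricF h y := by
  set e' := chartAt C2 y with he'd
  have he' : e' ∈ atlas C2 X := chart_mem_atlas C2 y
  have hy' : y ∈ e'.source := mem_chart_source C2 y
  have hJ := det_analyticAt he' hc hy' hy
  have hJ0 : (jacM e' c (e'.symm (e' y))).det ≠ 0 := by
    rw [e'.left_inv hy']
    exact jacM_det_ne_zero he' hc hy' hy
  have h1 : (fun z => (Real.log (loc11 c h (c (e'.symm z))).det.re : ℂ)) =ᶠ[𝓝 (e' y)]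
      fun z => (Real.log (loc11 e' h z).det.re : ℂ) -
        (Real.log (‖(jacM e' c (e'.symm z)).det‖ ^ 2) : ℂ) := by
    filter_upwards [(isOpen_trans e' c).mem_nhds (mem_trans hy' hy)] with z hz
    have hx1 : e'.symm z ∈ e'.source := e'.map_target hz.1
    have hx2 : e'.symm z ∈ c.source := hz.2
    rw [det_loc11_re, det_loc11_re, c.left_inv hx2, jac_eq he' hc hx1 hx2, Matrix.det_mul,
      norm_mul, mul_pow]
    have p1 : 0 < ‖(jac c (e'.symm z)).det‖ := norm_pos_iff.2 (jac_det_ne_zero hc hx2)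
    have p2 : 0 < ‖(jacM e' c (e'.symm z)).det‖ :=
      norm_pos_iff.2 (jacM_det_ne_zero he' hc hx1 hx2)
    have p3 := det_pos hh (e'.symm z)
    rw [← Complex.ofReal_sub, ← Real.log_div (by positivity) (by positivity)]
    congr 2
    field_simp
  have hd := (contDiffOn_logdet hh he').contDiffAt (e'.open_target.mem_nhds (e'.map_source hy'))
  rw [ddz_congr h1, ddz_sub (contDiffAt_ofReal (hd.of_le (WithTop.coe_le_coe.2 le_top)))
    (contDiffAt_ofReal ((contDiffAt_log_norm_sq hJ hJ0).of_le (WithTop.coe_le_coe.2 le_top))),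
    ddz_log_norm_sq hJ hJ0, sub_zero]
  rfl

/-- **flat metrics on `K` twisted by a norm function**: if the curvature of `N` is
`∂∂̄ log det h - ∂∂̄ w` then `N · e^{-w} · det h` is locally `|θ|²` -/
theorem flatK_of_curv {N : X → ℝ} {W : Set X} (hW : IsOpen W) (hN : IsNormFnOn C2 N W)
    {h : X → Matrix (Fin 2) (Fin 2) ℂ} (hh : IsHerm h) {w : X → ℝ}
    (hw : ContMDiffOn 𝓘(ℝ, C2) 𝓘(ℝ) ∞ w W)
    (hcurv : ∀ y ∈ W, curvN N y = ricF h y - ddb (fun x => (w x : ℂ)) y) :
    FlatK (fun y => N y * Real.exp (-w y) * (h y).det.re) W := by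
  intro x hxW
  obtain ⟨U, g, φ, hxU, hrep⟩ := hN x hxW
  set c := chartAt C2 x with hcd
  have hc : c ∈ atlas C2 X := chart_mem_atlas C2 x
  have hxc : x ∈ c.source := mem_chart_source C2 x
  set V : Set X := U ∩ W ∩ c.source with hV
  have hVo : IsOpen V := (hrep.isOpen.inter hW).inter c.open_source
  set φ' : X → ℝ := fun y => φ y + w y - Real.log (loc11 c h (c y)).det.re with hφ'
  set N' : X → ℝ := fun y => N y * Real.exp (-w y) * (loc11 c h (c y)).det.re with hN'
  have hs1 : ContMDiffOn 𝓘(ℝ, C2) 𝓘(ℝ) ∞ (fun y => Real.log (loc11 c h (c y)).det.re) V := by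
    refine contMDiffOn_of_chart hc (fun y hy => hy.2) ?_
    refine ((contDiffOn_logdet hh hc).mono inter_subset_left).congr fun z hz => ?_
    rw [c.right_inv hz.1]
  have hrep' : LocRep C2 N' V g φ' := by
    refine ⟨hVo, hrep.hol.mono fun y hy => hy.1.1, fun V' h1 h2 h3 => hrep.nz V' h1
      (fun y hy => (h2 hy).1.1) h3, ?_, fun y hy => ?_⟩
    · exact ((hrep.smooth.mono fun y hy => hy.1.1).add (hw.mono fun y hy => hy.1.2)).sub hs1
    · have hp := det_loc11_pos hh hc (c.map_source hy.2)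
      rw [hN', hφ']
      simp only
      rw [hrep.eq y hy.1.1, neg_sub, Real.exp_sub, Real.exp_add, Real.exp_log hp, Real.exp_neg,
        Real.exp_neg]
      field_simp
  have h0 : ∀ y ∈ V, curvN N' y = 0 := by
    intro y hy
    have hy' : (chartAt C2 y).symm (chartAt C2 y y) = y :=
      (chartAt C2 y).left_inv (mem_chart_source C2 y)
    have e1 := (lr_cda hrep (chart_mem_atlas C2 y) (mem_chart_target C2 y)
      (by rw [hy']; exact hy.1.1)).of_le (m := 2) (WithTop.coe_le_coe.2 le_top)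
    have hwV : LocRep C2 (fun y => Real.exp (-w y)) W (fun _ => 1) w := locRep_exp hW hw
    have e2 := (lr_cda hwV (chart_mem_atlas C2 y) (mem_chart_target C2 y)
      (by rw [hy']; exact hy.1.2)).of_le (m := 2) (WithTop.coe_le_coe.2 le_top)
    have e3 : ContDiffAt ℝ 2 (fun z => (Real.log (loc11 c h (c ((chartAt C2 y).symm z))).det.re : ℂ))
        (chartAt C2 y y) := by
      have := contDiffOn_chart (chart_mem_atlas C2 y) hs1
      refine contDiffAt_ofReal ((this.contDiffAt ?_).of_le (WithTop.coe_le_coe.2 le_top))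
      exact ((chartAt C2 y).symm.isOpen_inter_preimage hVo).mem_nhds
        ⟨mem_chart_target C2 y, by rw [mem_preimage, hy']; exact hy⟩
    have e4 : (fun z => ((φ' ((chartAt C2 y).symm z) : ℝ) : ℂ)) = fun z =>
        ((φ ((chartAt C2 y).symm z) : ℂ) + (w ((chartAt C2 y).symm z) : ℂ)) -
          (Real.log (loc11 c h (c ((chartAt C2 y).symm z))).det.re : ℂ) := by
      funext z
      rw [hφ']
      push_cast
      rfl
    have e5 : ddb (fun x => (w x : ℂ)) y = _ := ddb_eq (u := fun x => (w x : ℂ)) e2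
    rw [H332.curvN_eq hrep' hy, e4, ddz_sub (e1.add e2) e3, ddz_add e1 e2, ric_chart hh hc hy.2,
      ← H332.curvN_eq hrep hy.1.1, hcurv y hy.1.2, e5]
    abel
  obtain ⟨U', G, hU'o, hxU', hU'V, hG, hGN⟩ := flat_norm hrep' h0 hc ⟨⟨hxU, hxW⟩, hxc⟩ hxc
  refine ⟨U', fun y => ((jac c y).det)⁻¹ * G (c y), hU'o, hxU',
    fun y hy => (hU'V hy).1.1.2, ?_, fun y hy => ?_⟩
  · refine holOn_of_holAt fun y hy => ?_
    have hyc : y ∈ c.source := (hU'V hy).2
    refine holAt_of_chart hc hyc ?_
    have h1 : loc0 1 c (fun y => ((jac c y).det)⁻¹ * G (c y)) =ᶠ[𝓝 (c y)] G := by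
      filter_upwards [c.open_target.mem_nhds (c.map_source hyc)] with z hz
      rw [loc0, c.right_inv hz, zpow_one, smul_eq_mul, ← mul_assoc,
        mul_inv_cancel₀ (jac_det_ne_zero hc (c.map_target hz)), one_mul]
    exact (hG y hy).congr h1.symm
  · have hyc : y ∈ c.source := (hU'V hy).2
    have hJ : ‖(jac c y).det‖ ≠ 0 := norm_ne_zero_iff.2 (jac_det_ne_zero hc hyc)
    have h1 := hGN y hy
    rw [hN'] at h1
    simp only at h1
    rw [det_loc11_re, c.left_inv hyc] at h1
    rw [norm_mul, norm_inv, mul_pow, ← h1]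
    field_simp

end Vale.Agent.P267.H821
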