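import Vale.Agent.P267.H821.GeoRaw

/-!
# P267 / H821 (LINE X, step (A3)): the data on `W`, case A

`flat_root`: if `N^k F = u F'` with `u > 0` smooth and flat `F`, `F'` then there is a positive
smooth function with the curvature of `N`.
-/

set_option linter.unusedVariables false
set_option linter.unusedSectionVars false

open scoped Manifold ContDiff ComplexConjugate Matrix ComplexOrder Topology
open MeasureTheory Set Filter Function

noncomputable section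

namespace Vale.Agent.P267.H821

open FL H757 H332 H781 H759

section root

variable {X : Type*} [TopologicalSpace X] [ChartedSpace C2 X] [IsManifold 𝓘(ℂ, C2) ω X]

/-- flat norm functions on `W` -/
structure FlatN (W : Set X) (F : X → ℝ) : Prop where
  norm : IsNormFnOn C2 F W
  curv : ∀ x ∈ W, curvN F x = 0

theorem FlatN.mul {W : Set X} {F F' : X → ℝ} (h : FlatN W F) (h' : FlatN W F') :
    FlatN W fun x => F x * F' x :=
  ⟨h.norm.mul h'.norm, fun x hx => by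
    rw [curvN_mul_on h.norm h'.norm hx, h.curv x hx, h'.curv x hx, add_zero]⟩

theorem FlatN.pow {W : Set X} {F : X → ℝ} (h : FlatN W F) (k : ℕ) : FlatN W fun x => F x ^ k :=
  ⟨h.norm.pow k, fun x hx => by rw [curvN_pow_on h.norm hx k, h.curv x hx, smul_zero]⟩

theorem FlatN.one {W : Set X} : FlatN W fun _ : X => (1 : ℝ) :=
  ⟨isNormFn_one.on _, fun x _ => curvN_const_one x⟩

theorem FlatN.mono {W W' : Set X} {F : X → ℝ} (h : FlatN W F) (hW : W' ⊆ W) : FlatN W' F :=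
  ⟨h.norm.mono hW, fun x hx => h.curv x (hW hx)⟩

theorem flat_root {f : X → ℝ} {W : Set X} (hW : IsOpen W) {N F F' : X → ℝ}
    (hN : IsNormFnOn C2 N W) (hF : FlatN W F) (hF' : FlatN W F') {k : ℕ} (hk : 0 < k)
    (h : Eqv f W (fun x => N x ^ k * F x) F') :
    ∃ ρ : X → ℝ, ContMDiffOn 𝓘(ℝ, C2) 𝓘(ℝ) ∞ ρ W ∧ (∀ x ∈ W, 0 < ρ x) ∧
      ∀ x ∈ W, curvN ρ x = curvN N x := by
  obtain ⟨u, hu, hu0, hueq, -⟩ := eqv_def h
  have hk' : (k : ℝ) ≠ 0 := Nat.cast_ne_zero.2 hk.ne'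
  set ρ : X → ℝ := fun x => Real.exp (Real.log (u x) / k) with hρ
  have hρs : ContMDiffOn 𝓘(ℝ, C2) 𝓘(ℝ) ∞ ρ W := by
    have h1 : ContDiffOn ℝ ∞ (fun t : ℝ => Real.exp (Real.log t / k)) (Ioi 0) :=
      Real.contDiff_exp.comp_contDiffOn ((contDiffOn_id.log fun x hx => ne_of_gt hx).div_const _)
    exact (contMDiffOn_iff_contDiffOn.2 h1).comp hu fun x hx => hu0 x hx
  have hρ0 : ∀ x ∈ W, 0 < ρ x := fun x _ => Real.exp_pos _
  have hρk : ∀ x ∈ W, ρ x ^ k = u x := by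
    intro x hx
    rw [hρ]
    simp only
    rw [← Real.exp_nat_mul, mul_div_cancel₀ _ hk', Real.exp_log (hu0 x hx)]
  have hρN : IsNormFnOn C2 ρ W := isNormFnOn_of_pos hW hρs hρ0
  refine ⟨ρ, hρs, hρ0, fun x hx => ?_⟩
  have e1 : curvN (fun x => N x ^ k * F x) x = k • curvN N x := by
    rw [curvN_mul_on (hN.pow k) hF.norm hx, curvN_pow_on hN hx k, hF.curv x hx, add_zero]
  have e2 : curvN (fun x => ρ x ^ k * F' x) x = k • curvN ρ x := by
    rw [curvN_mul_on (hρN.pow k) hF'.norm hx, curvN_pow_on hρN hx k, hF'.curv x hx, add_zero]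
  have e3 : curvN (fun x => N x ^ k * F x) x = curvN (fun x => ρ x ^ k * F' x) x := by
    refine curvN_congr_on ((hN.pow k).mul hF.norm) hx ?_
    filter_upwards [hW.mem_nhds hx] with y hy
    rw [hueq y hy, hρk y hy]
  have e4 : (k : ℂ) • curvN ρ x = (k : ℂ) • curvN N x := by
    rw [Nat.cast_smul_eq_nsmul, Nat.cast_smul_eq_nsmul, ← e1, ← e2, e3]
  exact smul_right_injective _ (Nat.cast_ne_zero.2 hk.ne') e4

end root

namespace Geo

variable {M : Type*} [TopologicalSpace M] [ChartedSpace C2 M] [IsManifold 𝓘(ℂ, C2) ω M]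
  (D : Geo M)

/-- exact functions are flat -/
theorem flat_of_exact {b : ℝ} {l : ℤ} {ζ : M → ℂ}
    (hζ : ∀ x, D.f x < b → MDifferentiableAt 𝓘(ℂ, C2) 𝓘(ℂ) ζ x)
    (hζN : ∀ x, D.f x < b → ‖ζ x‖ ^ 2 = D.N l x) :
    FlatN {x | D.f x < b} (D.N l) ∧
      ∀ V : Set M, IsOpen V → V ⊆ {x | D.f x < b} → V.Nonempty → ∃ x ∈ V, ζ x ≠ 0 := by
  have hW : IsOpen {x | D.f x < b} := isOpen_lt D.f_cont continuous_const
  have hnz : ∀ V : Set M, IsOpen V → V ⊆ {x | D.f x < b} → V.Nonempty → ∃ x ∈ V, ζ x ≠ 0 := by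
    intro V hV hVs hne
    obtain ⟨x, hxV, hx⟩ := (D.N_norm l).dense_ne_zero.inter_open_nonempty V hV hne
    refine ⟨x, hxV, fun h0 => hx ?_⟩
    have h1 := hζN x (hVs hxV)
    rw [h0, norm_zero] at h1
    rw [← h1]; norm_num
  refine ⟨⟨(D.N_norm l).on _, fun x hx => ?_⟩, hnz⟩
  have h1 : curvN (D.N l) x = curvN (fun x => ‖ζ x‖ ^ 2) x := by
    refine curvN_congr_on ((D.N_norm l).on univ) (mem_univ x) ?_
    filter_upwards [hW.mem_nhds hx] with y hy
    exact (hζN y hy).symm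
  rw [h1]
  exact curvN_hol hW (fun y hy => (hζ y hy).mdifferentiableWithinAt) hnz hx

theorem exists_flat (b : ℝ) : ∃ L : ℤ, ∀ l, L ≤ l → FlatN {x | D.f x < b} (D.N l) := by
  obtain ⟨L, hL⟩ := D.exact b
  refine ⟨L, fun l hl => ?_⟩
  obtain ⟨ζ, h1, h2⟩ := hL l hl
  exact (D.flat_of_exact h1 h2).1

/-! ### the open set `W` -/

section W

variable (i : ℤ) (b : ℝ) (L : ℤ) (T : Finset ℤ)

/-- `{f < b}` minus the curves `C k`, `i + 1 < k < L`, `k ∉ T` -/
def Wset : Set M := {x | D.f x < b} ∩ ⋂ k ∈ (Finset.Ioo (i + 1) L) \ T, (D.C k)ᶜ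

variable {i b L T}

theorem isOpen_Wset [T2Space M] : IsOpen (D.Wset i b L T) :=
  (isOpen_lt D.f_cont continuous_const).inter
    (isOpen_biInter_finset fun k _ => (D.C_closed k).isOpen_compl)

theorem Wset_lt {x : M} (hx : x ∈ D.Wset i b L T) : D.f x < b := hx.1

theorem Wset_notMem (hL : ∀ l, L ≤ l → ∀ x ∈ D.C l, b ≤ D.f x) {x : M}
    (hx : x ∈ D.Wset i b L T) {k : ℤ} (hk : i + 1 < k) (hkT : k ∉ T) : x ∉ D.C k := by
  intro hxk
  rcases lt_or_ge k L with h | h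
  · have h2 := hx.2
    simp only [mem_iInter, mem_compl_iff, Finset.mem_sdiff, Finset.mem_Ioo] at h2
    exact h2 k ⟨⟨hk, h⟩, hkT⟩ hxk
  · exact absurd (hL k h x hxk) (not_le.2 hx.1)

theorem Z_subset_Wset (hT : ∀ l, i ∈ Iv D.s l → l = i + 1 ∨ l ∈ T)
    (hb : ∀ x ∈ D.Z i, D.f x < b) : D.Z i ⊆ D.Wset i b L T := by
  intro x hx
  refine ⟨hb x hx, ?_⟩
  simp only [mem_iInter, mem_compl_iff, Finset.mem_sdiff, Finset.mem_Ioo]
  rintro k ⟨⟨hk, -⟩, hkT⟩ hxk
  obtain ⟨j, hj, hxj⟩ := (D.mem_Z i).1 hx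
  by_cases hjk : j = k - D.s k
  · have : i ∈ Iv D.s k := by rw [mem_Iv]; omega
    rcases hT k this with h | h
    · omega
    · exact hkT h
  · exact Set.disjoint_left.1 (D.disj k j (by omega) hjk) hxk hxj

theorem exists_below (F : Finset ℤ) : ∃ a : ℝ, ∀ k ∈ F, ∀ x ∈ D.C k, a ≤ D.f x := by
  classical
  induction F using Finset.induction_on with
  | empty => exact ⟨0, fun k hk => by simp at hk⟩
  | insert k F hk ih =>
    obtain ⟨a, ha⟩ := ih
    obtain ⟨a', ha'⟩ : ∃ a' : ℝ, ∀ x ∈ D.C k, a' ≤ D.f x := by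
      rcases (D.C k).eq_empty_or_nonempty with h | h
      · exact ⟨0, fun x hx => by rw [h] at hx; exact hx.elim⟩
      · obtain ⟨x0, -, hx0⟩ := (D.C_cpt k).exists_isMinOn h D.f_cont.continuousOn
        exact ⟨D.f x0, fun x hx => hx0 hx⟩
    refine ⟨min a a', fun j hj x hx => ?_⟩
    rcases Finset.mem_insert.1 hj with rfl | h
    · exact (min_le_right _ _).trans (ha' x hx)
    · exact (min_le_left _ _).trans (ha j h x hx)

theorem Wset_in : ∃ a, ∀ x, D.f x < a → x ∈ D.Wset i b L T := by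
  obtain ⟨a, ha⟩ := D.exists_below ((Finset.Ioo (i + 1) L) \ T)
  refine ⟨min a b, fun x hx => ⟨lt_of_lt_of_le hx (min_le_right _ _), ?_⟩⟩
  simp only [mem_iInter, mem_compl_iff]
  intro k hk hxk
  exact absurd (ha k hk x hxk) (not_le.2 (lt_of_lt_of_le hx (min_le_left _ _)))

/-- the factors of the Duhamel formula -/
theorem E_succ (x : M) : D.Q (i + 1) x * ∏ j ∈ (Iv D.s (i + 1)).filter (fun j => j ≤ i), D.N j x =
    D.N (i + 1) x := by
  rw [D.N_eq (i + 1) x]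
  congr 1
  rw [Finset.filter_true_of_mem]
  intro j hj
  rw [mem_Iv] at hj
  omega

theorem E_one (hL : ∀ l, L ≤ l → ∀ x ∈ D.C l, b ≤ D.f x)
    (hT : ∀ l, i ∈ Iv D.s l → l = i + 1 ∨ l ∈ T) {p : ℤ} (hp : i + 1 < p) (hpT : p ∉ T) :
    Eqv D.f (D.Wset i b L T) (fun x => D.Q p x *
      ∏ j ∈ (Iv D.s p).filter (fun j => j ≤ i), D.N j x) (fun _ => 1) := by
  have h1 : (Iv D.s p).filter (fun j => j ≤ i) = ∅ := by
    rw [Finset.filter_eq_empty_iff]
    intro j hj hji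
    have : i ∈ Iv D.s p := by rw [mem_Iv] at hj ⊢; omega
    rcases hT p this with h | h
    · omega
    · exact hpT h
  rw [h1]
  simp only [Finset.prod_empty, mul_one]
  exact D.Q_eqv_one fun x hx => D.Wset_notMem hL hx hp hpT

end W

/-- **Case A** on `W` -/
theorem eqv_A {i : ℤ} {b : ℝ} {L : ℤ} (hL : ∀ l, L ≤ l → ∀ x ∈ D.C l, b ≤ D.f x)
    (hA : ∀ l, i ∈ Iv D.s l → l = i + 1) {l : ℤ} (hl : i < l) :
    Eqv D.f (D.Wset i b L ∅) (D.N l) (fun x => D.N (i + 1) x ^ D.m l (i + 1)) := by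
  have e1 : Eqv D.f (D.Wset i b L ∅) (D.N l) (fun x => ∏ p ∈ Finset.Ioc i l,
      (D.Q p x * ∏ j ∈ (Iv D.s p).filter (fun j => j ≤ i), D.N j x) ^ D.m l p) :=
    Eqv.of_eq fun x _ => D.duhamel i l hl x
  have e2 : Eqv D.f (D.Wset i b L ∅) (fun x => ∏ p ∈ Finset.Ioc i l,
      (D.Q p x * ∏ j ∈ (Iv D.s p).filter (fun j => j ≤ i), D.N j x) ^ D.m l p)
      (fun x => ∏ p ∈ Finset.Ioc i l,
        (if p = i + 1 then D.N (i + 1) x ^ D.m l (i + 1) else 1)) := by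
    refine Eqv.prod _ fun p hp => ?_
    rw [Finset.mem_Ioc] at hp
    by_cases hpi : p = i + 1
    · subst hpi
      simp only [if_true]
      exact Eqv.of_eq fun x _ => by rw [D.E_succ]
    · simp only [if_neg hpi]
      exact (D.E_one hL (fun l hl => Or.inl (hA l hl)) (by omega) (by simp)).pow_one _
  refine (e1.trans e2).trans (Eqv.of_eq fun x _ => ?_)
  rw [Finset.prod_ite_eq', if_pos (Finset.mem_Ioc.2 ⟨by omega, by omega⟩)]

/-- **The data on `W` in case A.** -/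
theorem exists_onW_A [T2Space M] {i : ℤ} (hA : ∀ l, i ∈ Iv D.s l → l = i + 1) :
    Nonempty (D.OnW i) := by
  obtain ⟨b, hb⟩ := D.N_out i
  have hbZ : ∀ x ∈ D.Z i, D.f x < b := by
    intro x hx
    by_contra hcon
    have h1 := hb x (not_lt.1 hcon)
    have h2 : D.N i x = 0 := hx
    rw [h2] at h1
    exact zero_ne_one h1
  obtain ⟨L, hL⟩ := D.C_far b
  obtain ⟨L', hL'⟩ := D.exact b
  set i2 : ℤ := max L' (i + 2) with hi2
  set W := D.Wset i b L ∅ with hW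
  have hWo : IsOpen W := D.isOpen_Wset
  have hWb : W ⊆ {x | D.f x < b} := fun x hx => hx.1
  obtain ⟨ζ, hζ, hζN⟩ := hL' i2 (le_max_left _ _)
  have hflat : ∀ l, i2 ≤ l → FlatN W (D.N l) := by
    intro l hl
    obtain ⟨ξ, h1, h2⟩ := hL' l ((le_max_left _ _).trans hl)
    exact (D.flat_of_exact h1 h2).1.mono hWb
  have hm : 0 < D.m i2 (i + 1) := D.hm.one_le D.word (by omega)
  have hρ : ∀ l, ∃ ρ : M → ℝ, i < l → l < i2 → ContMDiffOn 𝓘(ℝ, C2) 𝓘(ℝ) ∞ ρ W ∧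
      (∀ x ∈ W, 0 < ρ x) ∧ ∀ x ∈ W, curvN ρ x = curvN (D.N l) x := by
    intro l
    by_cases hl : i < l
    · obtain ⟨ρ, h1, h2, h3⟩ := flat_root (f := D.f) hWo ((D.N_norm l).on W)
        (F := fun _ => (1 : ℝ)) (F' := fun x => D.N i2 x ^ D.m l (i + 1)) FlatN.one
        ((hflat i2 le_rfl).pow _) hm (by
          have e1 := (D.eqv_A hL hA hl).pow (D.m i2 (i + 1))
          have e2 := (D.eqv_A hL hA (l := i2) (by omega)).pow (D.m l (i + 1))
          refine Eqv.trans ?_ e2.symm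
          refine (Eqv.of_eq fun x _ => mul_one _).trans (e1.trans (Eqv.of_eq fun x _ => ?_))
          rw [← pow_mul, ← pow_mul, mul_comm])
      exact ⟨ρ, fun _ _ => ⟨h1, h2, h3⟩⟩
    · exact ⟨fun _ => 1, fun h => absurd h hl⟩
  choose ρ hρ using hρ
  exact ⟨{
    W := W
    W_open := hWo
    Z_W := D.Z_subset_Wset (fun l hl => Or.inl (hA l hl)) hbZ
    W_in := D.Wset_in
    zz := ζ
    zz_hol := fun x hx => hζ x (hWb hx)
    m := D.m i2 (i + 1)
    m_pos := hm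
    zz_eqv := (Eqv.of_eq fun x hx => hζN x (hWb hx)).trans (D.eqv_A hL hA (by omega))
    i2 := i2
    ρ := ρ
    ρ_smooth := fun l h h2 => (hρ l h h2).1
    ρ_pos := fun l h h2 => (hρ l h h2).2.1
    ρ_curv := fun l h h2 => (hρ l h h2).2.2
    flat := fun l h h2 => (hflat l h2).curv }⟩

end Geo

end Vale.Agent.P267.H821
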