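import Vale.Agent.P267.H821.GeoA

/-!
# P267 / H821 (LINE X, step (A3)): quotients of holomorphic functions on a complex surface

If `|g₁|² = B |g₂|²` with `B` continuous then `g₁ / g₂` extends holomorphically.
-/

set_option linter.unusedVariables false
set_option linter.unusedSectionVars false

open scoped Manifold ContDiff ComplexConjugate Matrix ComplexOrder Topology
open MeasureTheory Set Filter Function

noncomputable section

namespace Vale.Agent.P267.H821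

open FL H757 H332

variable {X : Type*} [TopologicalSpace X] [ChartedSpace C2 X] [IsManifold 𝓘(ℂ, C2) ω X]

/-- holomorphic functions from charts -/
theorem mdifferentiableAt_of_chart {g : X → ℂ} {c : Ch X} (hc : c ∈ atlas C2 X) {x : X}
    (hx : x ∈ c.source) {F : C2 → ℂ} (hF : DifferentiableAt ℂ F (c x))
    (h : ∀ᶠ y in 𝓝 x, g y = F (c y)) : MDifferentiableAt 𝓘(ℂ, C2) 𝓘(ℂ) g x := by
  have h1 : MDifferentiableAt 𝓘(ℂ, C2) 𝓘(ℂ, C2) c x :=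
    (contMDiffOn_of_mem_maximalAtlas (n := ω) (IsManifold.subset_maximalAtlas hc)).mdifferentiableOn
      (by simp) |>.mdifferentiableAt (c.open_source.mem_nhds hx)
  have h2 : MDifferentiableAt 𝓘(ℂ, C2) 𝓘(ℂ) F (c x) := mdifferentiableAt_iff_differentiableAt.2 hF
  have h3 : MDifferentiableAt 𝓘(ℂ, C2) 𝓘(ℂ) (fun y => F (c y)) x :=
    MDifferentiableAt.comp x (g := F) h2 h1
  exact h3.congr_of_eventuallyEq h

/-- local extension of the quotient -/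
theorem exists_local_quot {W : Set X} (hW : IsOpen W) {g₁ g₂ : X → ℂ}
    (h₁ : MDifferentiableOn 𝓘(ℂ, C2) 𝓘(ℂ) g₁ W) (h₂ : MDifferentiableOn 𝓘(ℂ, C2) 𝓘(ℂ) g₂ W)
    (hnz : ∀ V : Set X, IsOpen V → V ⊆ W → V.Nonempty → ∃ x ∈ V, g₂ x ≠ 0) {B : X → ℝ}
    (hB : ContinuousOn B W) (heq : ∀ x ∈ W, ‖g₁ x‖ ^ 2 = B x * ‖g₂ x‖ ^ 2) {x : X} (hx : x ∈ W) :
    ∃ (V : Set X) (k : X → ℂ), IsOpen V ∧ x ∈ V ∧ V ⊆ W ∧ (∀ y ∈ V, ContinuousAt k y) ∧
      (∀ y ∈ V, MDifferentiableAt 𝓘(ℂ, C2) 𝓘(ℂ) k y) ∧ ∀ y ∈ V, g₂ y ≠ 0 → k y = g₁ y / g₂ y := by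
  set c := chartAt C2 x with hc
  have hcA : c ∈ atlas C2 X := chart_mem_atlas C2 x
  have hxc : x ∈ c.source := mem_chart_source C2 x
  have hBx : ContinuousAt B x := hB.continuousAt (hW.mem_nhds hx)
  obtain ⟨U', hU'sub, hU'o, hxU'⟩ := mem_nhds_iff.1
    (hBx.eventually (gt_mem_nhds (lt_add_one (B x))))
  set V : Set C2 := c.target ∩ c.symm ⁻¹' (W ∩ U') with hV
  have hVo : IsOpen V := c.symm.isOpen_inter_preimage (hW.inter hU'o)
  have hcx : c.symm (c x) = x := c.left_inv hxc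
  have hxV : c x ∈ V := ⟨c.map_source hxc, by rw [mem_preimage, hcx]; exact ⟨hx, hxU'⟩⟩
  have d1 : DifferentiableOn ℂ (fun z => g₁ (c.symm z)) V :=
    (H332.differentiableOn_chart hcA h₁).mono fun z hz => ⟨hz.1, hz.2.1⟩
  have d2 : DifferentiableOn ℂ (fun z => g₂ (c.symm z)) V :=
    (H332.differentiableOn_chart hcA h₂).mono fun z hz => ⟨hz.1, hz.2.1⟩
  have hfr : ∃ᶠ z in 𝓝 (c x), g₂ (c.symm z) ≠ 0 := by
    intro hcon
    obtain ⟨O, hO, hOo, hxO⟩ := mem_nhds_iff.1 hcon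
    obtain ⟨y, ⟨⟨hy1, hy2⟩, hyW⟩, hy0⟩ := hnz ((c.source ∩ c ⁻¹' O) ∩ W)
      ((c.isOpen_inter_preimage hOo).inter hW) inter_subset_right ⟨x, ⟨hxc, hxO⟩, hx⟩
    have := hO hy2
    simp only [mem_setOf_eq, not_not, c.left_inv hy1] at this
    exact hy0 this
  have hdiv : DifferentiableOn ℂ (fun z => g₁ (c.symm z) / g₂ (c.symm z))
      (V ∩ {z | g₂ (c.symm z) ≠ 0}) := by
    have k1 : DifferentiableOn ℂ (fun z => g₁ (c.symm z)) (V ∩ {z | g₂ (c.symm z) ≠ 0}) :=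
      d1.mono inter_subset_left
    have k2 : DifferentiableOn ℂ (fun z => g₂ (c.symm z)) (V ∩ {z | g₂ (c.symm z) ≠ 0}) :=
      d2.mono inter_subset_left
    have k3 : DifferentiableOn ℂ (fun z => (g₂ (c.symm z))⁻¹) (V ∩ {z | g₂ (c.symm z) ≠ 0}) :=
      fun z hz => (differentiableAt_inv (𝕜 := ℂ) (x := g₂ (c.symm z)) hz.2).comp_differentiableWithinAt
        z (k2 z hz)
    exact (k1.mul k3).congr fun z hz => div_eq_mul_inv _ _
  obtain ⟨W', hW'o, hxW', hW'V, k, hk, hkeq⟩ := H338.riemann_extension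
    (g := fun z => g₂ (c.symm z)) (u := fun z => g₁ (c.symm z) / g₂ (c.symm z))
    (C := Real.sqrt (B x + 1)) hVo hxV d2 hfr hdiv (by
      intro z hz hz0
      have h1 := heq (c.symm z) hz.2.1
      have hp : 0 < ‖g₂ (c.symm z)‖ := norm_pos_iff.2 hz0
      have h2 : (‖g₁ (c.symm z)‖ / ‖g₂ (c.symm z)‖) ^ 2 = B (c.symm z) := by
        rw [div_pow, h1]; field_simp
      rw [norm_div]
      apply Real.le_sqrt_of_sq_le
      rw [h2]
      exact (hU'sub hz.2.2).le)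
  refine ⟨c.source ∩ c ⁻¹' W', fun y => k (c y), c.isOpen_inter_preimage hW'o, ⟨hxc, hxW'⟩, ?_,
    ?_, ?_, ?_⟩
  · rintro y ⟨hy1, hy2⟩
    have := (hW'V hy2).2.1
    rwa [c.left_inv hy1] at this
  · rintro y ⟨hy1, hy2⟩
    exact ContinuousAt.comp (g := k) (hk.continuousOn.continuousAt (hW'o.mem_nhds hy2))
      (c.continuousAt hy1)
  · rintro y ⟨hy1, hy2⟩
    exact mdifferentiableAt_of_chart hcA hy1 (hk.differentiableAt (hW'o.mem_nhds hy2))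
      (Eventually.of_forall fun _ => rfl)
  · rintro y ⟨hy1, hy2⟩ hy0
    have := hkeq (c y) hy2 (by rw [c.left_inv hy1]; exact hy0)
    rwa [c.left_inv hy1] at this

/-- two continuous functions which agree where `g₂ ≠ 0` agree -/
theorem eq_of_eq_off {W : Set X} {g₂ : X → ℂ}
    (hnz : ∀ V : Set X, IsOpen V → V ⊆ W → V.Nonempty → ∃ x ∈ V, g₂ x ≠ 0)
    {Y : Type*} [TopologicalSpace Y] [T2Space Y] {k k' : X → Y}
    {V : Set X} (hV : IsOpen V) (hVW : V ⊆ W) {x : X} (hx : x ∈ V) (hk : ContinuousAt k x)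
    (hk' : ContinuousAt k' x) (h : ∀ y ∈ V, g₂ y ≠ 0 → k y = k' y) : k x = k' x := by
  by_contra hne
  have h1 : ∀ᶠ y in 𝓝 x, (k y, k' y) ∈ {p : Y × Y | p.1 ≠ p.2} :=
    (hk.prodMk hk').eventually
      ((isOpen_ne_fun continuous_fst continuous_snd).mem_nhds hne)
  obtain ⟨O, hO, hOo, hxO⟩ := mem_nhds_iff.1 h1
  obtain ⟨y, ⟨hyO, hyV⟩, hy0⟩ := hnz (O ∩ V) (hOo.inter hV) (inter_subset_right.trans hVW)
    ⟨x, hxO, hx⟩
  exact hO hyO (h y hyV hy0)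

/-- **The quotient extends.** -/
theorem exists_quot {W : Set X} (hW : IsOpen W) {g₁ g₂ : X → ℂ}
    (h₁ : MDifferentiableOn 𝓘(ℂ, C2) 𝓘(ℂ) g₁ W) (h₂ : MDifferentiableOn 𝓘(ℂ, C2) 𝓘(ℂ) g₂ W)
    (hnz : ∀ V : Set X, IsOpen V → V ⊆ W → V.Nonempty → ∃ x ∈ V, g₂ x ≠ 0) {B : X → ℝ}
    (hB : ContinuousOn B W) (heq : ∀ x ∈ W, ‖g₁ x‖ ^ 2 = B x * ‖g₂ x‖ ^ 2) :
    ∃ k : X → ℂ, (∀ x ∈ W, MDifferentiableAt 𝓘(ℂ, C2) 𝓘(ℂ) k x) ∧ ∀ x ∈ W, ‖k x‖ ^ 2 = B x := by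
  have hloc : ∀ x : X, ∃ (V : Set X) (k : X → ℂ), x ∈ W → (IsOpen V ∧ x ∈ V ∧ V ⊆ W ∧
      (∀ y ∈ V, ContinuousAt k y) ∧ (∀ y ∈ V, MDifferentiableAt 𝓘(ℂ, C2) 𝓘(ℂ) k y) ∧
      ∀ y ∈ V, g₂ y ≠ 0 → k y = g₁ y / g₂ y) := by
    intro x
    by_cases hx : x ∈ W
    · obtain ⟨V, k, h⟩ := exists_local_quot hW h₁ h₂ hnz hB heq hx
      exact ⟨V, k, fun _ => h⟩
    · exact ⟨∅, fun _ => 0, fun h => absurd h hx⟩
  choose V k hVk using hloc
  have key : ∀ x ∈ W, ∀ y ∈ V x, k y y = k x y := by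
    intro x hx y hy
    obtain ⟨a1, a2, a3, a4, a5, a6⟩ := hVk x hx
    obtain ⟨b1, b2, b3, b4, b5, b6⟩ := hVk y (a3 hy)
    exact eq_of_eq_off hnz (b1.inter a1) (inter_subset_left.trans b3) ⟨b2, hy⟩ (b4 y b2) (a4 y hy)
      fun z hz hz0 => by rw [b6 z hz.1 hz0, a6 z hz.2 hz0]
  refine ⟨fun x => k x x, fun x hx => ?_, fun x hx => ?_⟩
  · obtain ⟨a1, a2, a3, a4, a5, a6⟩ := hVk x hx
    refine (a5 x a2).congr_of_eventuallyEq ?_
    filter_upwards [a1.mem_nhds a2] with y hy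
    exact key x hx y hy
  · obtain ⟨a1, a2, a3, a4, a5, a6⟩ := hVk x hx
    refine eq_of_eq_off (k := fun y => ‖k x y‖ ^ 2) (k' := B) hnz a1 a3 a2 ((a4 x a2).norm.pow 2)
      (hB.continuousAt (hW.mem_nhds hx)) fun y hy hy0 => ?_
    have hp : 0 < ‖g₂ y‖ := norm_pos_iff.2 hy0
    rw [a6 y hy hy0, norm_div, div_pow, heq y (a3 hy)]
    field_simp

end Vale.Agent.P267.H821
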